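import Vale.Agent.P054.T2.H819.QM
import Vale.Agent.P054.T2.H580.FiltDense
import Vale.Agent.P054.T2.H930.Germ3

/-!
# P054 / T2: quasi-monotonicity for germ ideals, one large `k` is enough
-/

open MvPolynomial Finset Module
open Vale.Agent.P054.T2.H580 (hilbF IsFilt)
open Vale.Agent.P054.T2.H930 (germ grad)

namespace Vale.Agent.P054.T2.H819

variable {K : Type*} [Field K] {σ : Type*} [Fintype σ] [DecidableEq σ]
  {V : ℕ → Submodule K (MvPolynomial σ K)}

/-- quasi-monotonicity of a sequence: exponent `s`, from level `w₀` on -/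
def QMon (h : ℕ → ℕ) (s w₀ : ℕ) : Prop :=
  Monotone h ∧ ∀ n, w₀ ≤ n → ∀ m, m ^ s * h n ≤ CG s * h (m * n)

/-- **Quasi-monotonicity for germ ideals.** -/
theorem qm_germ (hV : IsFilt V) {w₀ : ℕ} (hX : ∀ i, (X i : MvPolynomial σ K) ∈ V w₀) {c e : ℕ}
    (p : σ → K) (f : Fin c → MvPolynomial σ K) (hf : ∀ i, eval p (f i) = 0)
    (hind : LinearIndependent K (fun i => grad p (f i))) (he : e + c = Fintype.card σ) :
    QMon (hilbF V (germ p f)) e w₀ := by
  refine ⟨fun a b h => hV.hilbF_mono _ h, fun n hn m => ?_⟩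
  obtain ⟨e', he', φ, a, ζ, h1, h2, -, h4, -⟩ := H930.exists_germ p f hf hind
  have hee : e' = e := by omega
  subst hee
  rw [H930.germ_eq_ker φ h4]
  refine qm hV φ ζ (w₀ := w₀) ?_ ?_ hn m
  · intro l
    rw [h1]
    refine Submodule.sum_mem _ fun j _ => ?_
    have hC : ∀ c : K, (C c : MvPolynomial σ K) ∈ V 0 := by
      intro c
      have := (V 0).smul_mem c hV.one
      rwa [MvPolynomial.smul_eq_C_mul, mul_one] at this
    have h3 : (X j - C (p j) : MvPolynomial σ K) ∈ V w₀ :=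
      (V w₀).sub_mem (hX j) (hV.mono (Nat.zero_le _) (hC _))
    have h5 := hV.mul (hC (a l j)) h3
    rwa [zero_add] at h5
  · intro l
    have := h2 (X l)
    rw [aeval_X] at this
    rw [this]
    exact MvPolynomial.coe_X l

/-- **One large `k` is enough.** -/
theorem QMon.of_one {h : ℕ → ℕ} {s w₀ : ℕ} (hq : QMon h s w₀) {A D₁ N a₀ k : ℕ} (hk : a₀ ≤ k)
    (hk2 : w₀ ≤ k) (h1 : A * (k + s).choose s ≤ D₁ * h ((k + 1) * (N + 1) + a₀)) :
    ∀ n, (k + 1) * (N + 2) ≤ n → n ^ s * A ≤ (2 * (N + 2)) ^ s * s.factorial * CG s * D₁ * h n := by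
  intro n hn
  set q := (k + 1) * (N + 2) with hq'
  have hq0 : 0 < q := by positivity
  set m := n / q with hm
  have hm1 : 1 ≤ m := (Nat.one_le_div_iff hq0).2 hn
  have hm2 : n ≤ 2 * m * q := by
    have := Nat.lt_div_mul_add (a := n) hq0
    rw [← hm] at this
    nlinarith
  have hmq : m * q ≤ n := Nat.div_mul_le_self n q
  have hle : (k + 1) * (N + 1) + a₀ ≤ q := by
    rw [hq']
    nlinarith
  have hw : w₀ ≤ q := by
    rw [hq']
    nlinarith
  have hch : (k + 1) ^ s ≤ s.factorial * (k + s).choose s := by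
    rw [← Nat.ascFactorial_eq_factorial_mul_choose]
    exact Nat.pow_succ_le_ascFactorial _ _
  calc n ^ s * A ≤ (2 * m * q) ^ s * A := Nat.mul_le_mul_right _ (Nat.pow_le_pow_left hm2 _)
    _ = (2 * (N + 2)) ^ s * (m ^ s * ((k + 1) ^ s * A)) := by
        rw [hq', show 2 * m * ((k + 1) * (N + 2)) = 2 * (N + 2) * (m * (k + 1)) by ring, mul_pow,
          mul_pow m (k + 1)]
        ring
    _ ≤ (2 * (N + 2)) ^ s * (m ^ s * (s.factorial * (D₁ * h q))) := by
        refine Nat.mul_le_mul_left _ (Nat.mul_le_mul_left _ ?_)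
        calc (k + 1) ^ s * A ≤ (s.factorial * (k + s).choose s) * A := Nat.mul_le_mul_right _ hch
          _ = s.factorial * (A * (k + s).choose s) := by ring
          _ ≤ s.factorial * (D₁ * h q) := Nat.mul_le_mul_left _
              (h1.trans (Nat.mul_le_mul_left _ (hq.1 hle)))
    _ = (2 * (N + 2)) ^ s * s.factorial * D₁ * (m ^ s * h q) := by ring
    _ ≤ (2 * (N + 2)) ^ s * s.factorial * D₁ * (CG s * h (m * q)) :=
        Nat.mul_le_mul_left _ (hq.2 q hw m)
    _ ≤ (2 * (N + 2)) ^ s * s.factorial * D₁ * (CG s * h n) :=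
        Nat.mul_le_mul_left _ (Nat.mul_le_mul_left _ (hq.1 hmq))
    _ = _ := by ring

end Vale.Agent.P054.T2.H819
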