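import Vale.Agent.P054.T2.H819.ZPairs
import Vale.Agent.P054.T2.H930.GlueB1
import Vale.Agent.P054.T2.H580.Hat

/-!
# P054 / T2: the number of germ primes of `Z⁺` (input `hX` of section C)
-/

open MvPolynomial Finset Module
open Vale.Agent.P054.T2.H580 (hilbF IsFilt Vw)
open Vale.Agent.P054.T2.H930 (germ grad edgePt hatPt sysZ ZData Pt)
open Vale.Agent.P054.T2.H686 (Crd mu meet Qf)

namespace Vale.Agent.P054.T2.H819

variable {k : Type*} [Field k]

section sys

variable {A B C' : Type*} [Fintype A] [DecidableEq A] [Fintype B] [DecidableEq B] [Fintype C']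
  [DecidableEq C']

/-- the `(s, r)`-gradients of the vertical equations of `Z⁺` are independent -/
theorem sysZ_vert_linInd {c₀ c₁ c₂ : ℕ} (f : Fin c₀ → MvPolynomial A k)
    (h : Fin c₁ → MvPolynomial (A ⊕ B) k) (h' : Fin c₂ → MvPolynomial (A ⊕ C') k)
    (p : A ⊕ (B ⊕ C') → k)
    (hh : LinearIndependent k (fun i => fun b =>
      eval (p ∘ Sum.map id Sum.inl) (pderiv (Sum.inr b) (h i))))
    (hh' : LinearIndependent k (fun i => fun b =>
      eval (p ∘ Sum.map id Sum.inr) (pderiv (Sum.inr b) (h' i)))) :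
    LinearIndependent k (fun i : Fin (c₁ + c₂) => fun b =>
      eval p (pderiv (Sum.inr b) (sysZ f h h' (Fin.natAdd c₀ i)))) := by
  have injl : Function.Injective (Sum.map id Sum.inl : A ⊕ B → A ⊕ (B ⊕ C')) :=
    Function.Injective.sumMap Function.injective_id Sum.inl_injective
  have injr : Function.Injective (Sum.map id Sum.inr : A ⊕ C' → A ⊕ (B ⊕ C')) :=
    Function.Injective.sumMap Function.injective_id Sum.inr_injective
  refine H930.linInd_append (A := B) (B := C') _ ?_ ?_ ?_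
  · intro i b
    rw [H930.sysZ_h, H930.pderiv_rename_notMem, map_zero]
    rintro ⟨x, hx⟩
    rcases x with x | x <;> simp at hx
  · have : (fun i : Fin c₁ => fun b => eval p (pderiv (Sum.inr (Sum.inl b))
        (sysZ f h h' (Fin.natAdd c₀ (Fin.castAdd c₂ i)))))
        = fun i => fun b => eval (p ∘ Sum.map id Sum.inl) (pderiv (Sum.inr b) (h i)) := by
      funext i b
      rw [H930.sysZ_h]
      have := pderiv_rename injl (Sum.inr b) (h i)
      have e : (Sum.map id Sum.inl (Sum.inr b) : A ⊕ (B ⊕ C')) = Sum.inr (Sum.inl b) := rfl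
      rw [e] at this
      rw [this, eval_rename]
    rw [this]
    exact hh
  · have : (fun i : Fin c₂ => fun b => eval p (pderiv (Sum.inr (Sum.inr b))
        (sysZ f h h' (Fin.natAdd c₀ (Fin.natAdd c₁ i)))))
        = fun i => fun b => eval (p ∘ Sum.map id Sum.inr) (pderiv (Sum.inr b) (h' i)) := by
      funext i b
      rw [H930.sysZ_h']
      have := pderiv_rename injr (Sum.inr b) (h' i)
      have e : (Sum.map id Sum.inr (Sum.inr b) : A ⊕ (B ⊕ C')) = Sum.inr (Sum.inr b) := rfl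
      rw [e] at this
      rw [this, eval_rename]
    rw [this]
    exact hh'

/-- **[ZX]**, abstract form -/
theorem card_sysZ_primes [DecidableEq (Ideal (MvPolynomial (A ⊕ (B ⊕ C')) k))] {ι : Type*}
    (x : ι → A ⊕ (B ⊕ C') → k) (S : Finset ι) {W D c₀ c₁ c₂ v₁ v₂ : ℕ} (hW : 1 ≤ W) (hD : 1 ≤ D)
    (f : Fin c₀ → MvPolynomial A k) (h : Fin c₁ → MvPolynomial (A ⊕ B) k)
    (h' : Fin c₂ → MvPolynomial (A ⊕ C') k) (hfd : ∀ i, (f i).totalDegree ≤ W)
    (hhd : ∀ i, h i ∈ Vw k (wb A B W) (D * W)) (hhd' : ∀ i, h' i ∈ Vw k (wb A C' W) (D * W))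
    (h0 : ∀ e ∈ S, ∀ i, eval (x e) (sysZ f h h' i) = 0)
    (hf : ∀ e ∈ S, LinearIndependent k (fun i => grad (x e ∘ Sum.inl) (f i)))
    (hh : ∀ e ∈ S, LinearIndependent k (fun i => fun b =>
      eval (x e ∘ Sum.map id Sum.inl) (pderiv (Sum.inr b) (h i))))
    (hh' : ∀ e ∈ S, LinearIndependent k (fun i => fun b =>
      eval (x e ∘ Sum.map id Sum.inr) (pderiv (Sum.inr b) (h' i))))
    (hv₁ : c₁ + v₁ = Fintype.card B) (hv₂ : c₂ + v₂ = Fintype.card C') :
    (S.image fun e => germ (x e) (sysZ f h h')).card ≤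
      Cz (Fintype.card A) (Fintype.card B + Fintype.card C') * (W ^ c₀ * D ^ (c₁ + c₂)) := by
  have h1 := card_block_primes (A := A) (B := B ⊕ C') x S hW hD (sysZ f h h') f
    (fun i => H930.sysZ_f f h h' i) hfd (fun j => by
      refine Fin.addCases (fun j => ?_) (fun j => ?_) j
      · rw [H930.sysZ_h]
        refine H580.rename_mem_Vw_of_weight (wb A (B ⊕ C') W) (wb A B W) _ ?_ (hhd j)
        rintro (y | y) <;> rfl
      · rw [H930.sysZ_h']
        refine H580.rename_mem_Vw_of_weight (wb A (B ⊕ C') W) (wb A C' W) _ ?_ (hhd' j)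
        rintro (y | y) <;> rfl)
    h0 hf (fun e he => sysZ_vert_linInd f h h' (x e) (hh e he) (hh' e he))
    (v := v₁ + v₂) (by rw [Fintype.card_sum]; omega)
  rwa [Fintype.card_sum] at h1

end sys

/-- the constant of `card_Z_primes` -/
def Cx (n : ℕ) : ℕ := Cz (2 * n + 1) (4 * (n + 1))

open Classical in
/-- **[ZX]** for the data of section A: the number of germ primes of `Z⁺` on `E2`. -/
theorem card_Z_primes {n : ℕ} {E0 E1 E2 : Finset (((Fin (n + 1) → k) × (Fin (n + 1) → k)) ×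
      ((Fin (n + 1) → k) × (Fin (n + 1) → k)))} {wt : Crd n ⊕ Pt n → ℕ}
    {N c₀ c₁ c₂ σ₁ σ₂ : ℕ} (Z : ZData k n E0 E1 E2 wt N c₀ c₁ c₂ σ₁ σ₂) {W D v₁ v₂ : ℕ}
    (hW : 1 ≤ W) (hD : 1 ≤ D) (hwt : wt = Sum.elim (fun _ => 1) (fun _ => W))
    (hf : ∀ i, (Z.f i).totalDegree ≤ W) (hh : ∀ i, Z.h i ∈ Vw k wt (D * W))
    (hh' : ∀ i, Z.h' i ∈ Vw k wt (D * W)) (hv₁ : c₁ + v₁ = 2 * (n + 1))
    (hv₂ : c₂ + v₂ = 2 * (n + 1)) :
    (E2.image fun e => germ (edgePt e.1 e.2) Z.F).card ≤ Cx n * (W ^ c₀ * D ^ (c₁ + c₂)) := by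
  subst hwt
  have hcB : Fintype.card (Pt n) = 2 * (n + 1) := by
    rw [Fintype.card_sum, Fintype.card_fin]; ring
  have hcA : Fintype.card (Crd n) = 2 * n + 1 := by
    rw [Fintype.card_sum, Fintype.card_sum, Fintype.card_fin, Fintype.card_unit]; ring
  have h1 := card_sysZ_primes (A := Crd n) (B := Pt n) (C' := Pt n)
    (fun e : ((Fin (n + 1) → k) × (Fin (n + 1) → k)) × ((Fin (n + 1) → k) × (Fin (n + 1) → k)) =>
      edgePt e.1 e.2) E2 hW hD Z.f Z.h Z.h' hf hh hh'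
    (fun e he i => Z.F_zero (Z.mem0 he) i) (fun e he => Z.f_ind e he)
    (fun e he => by
      have := Z.h_ind e he
      rw [← H930.edgePt_comp_j1 e.1 e.2] at this
      exact this)
    (fun e he => by
      have := Z.h'_ind e he
      rw [← H930.edgePt_comp_j2 (Z.adj e (Z.mem0 he)).1 (Z.adj e (Z.mem0 he)).2] at this
      exact this) (v₁ := v₁) (v₂ := v₂) (by rw [hcB]; exact hv₁) (by rw [hcB]; exact hv₂)
  rw [hcA, hcB] at h1
  have h2 : 2 * (n + 1) + 2 * (n + 1) = 4 * (n + 1) := by ring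
  rw [h2] at h1
  exact h1

end Vale.Agent.P054.T2.H819
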