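import Vale.Agent.P054.T2.H269.SideCount
import Vale.Agent.P054.T2.H431.Bad
import Vale.Agent.P054.T2.H455.C3
import Vale.Agent.P054.T2.H819.ZX
import Vale.Agent.P054.T2.H84.SecCIneq

/-!
# P054 / T2, section C: the number of bad points (inputs `hb1`, `hb2` of `secC_ineq`)
-/

open MvPolynomial Finset Module
open Vale.Agent.P054.T2.H580 (hilbF IsFilt Vw)
open Vale.Agent.P054.T2.H930 (germ grad mx)
open Vale.Agent.P054.T2.H441 (hF rkY)
open Vale.Agent.P054.T2.H686 (mu meet Qf Crd E zt dists zt_injective)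
open Vale.Agent.P054.T2.SecC

namespace Vale.Agent.P054.T2.H819

theorem hilbF_comap_le {K R R' : Type*} [Field K] [CommRing R] [Algebra K R] [CommRing R']
    [Algebra K R'] {V : ℕ → Submodule K R} (hV : IsFilt V) (V' : ℕ → Submodule K R')
    (P : Ideal R) (ψ : R' →ₐ[K] R) {n m : ℕ} (h : ∀ F ∈ V' n, ψ F ∈ V m) :
    hilbF V' (P.comap ψ) n ≤ hilbF V P m := by
  have h1 : P.comap ψ = RingHom.ker ((Ideal.Quotient.mkₐ K P).comp ψ) := by
    ext F
    rw [Ideal.mem_comap, RingHom.mem_ker]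
    exact Ideal.Quotient.eq_zero_iff_mem.symm
  rw [h1, hilbF_ker]
  have := hV.finite_map P m
  refine Submodule.finrank_mono ?_
  rintro _ ⟨F, hF, rfl⟩
  exact ⟨ψ F, h F hF, rfl⟩

variable {n : ℕ}

theorem hF_Pr_le {A : Finset (ZZ n × ZZ n)} {W D σ v : ℕ} (S : Side n A W D σ v) (hv : v = 0)
    {e : ZZ n × ZZ n} (he : e ∈ A) (m : ℕ) :
    hF (S.Pr e) m ≤ (H269.Cn n * D ^ (2 * (n + 1)) * W ^ (n - σ) * W ^ σ) * (m + 1) ^ σ := by
  classical
  subst hv
  have hW := S.hW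
  have hV : IsFilt (Vw ℝ (wt (n := n) W)) := H580.isFilt_Vw _ (wt_ne hW)
  have h1 : hF (S.Pr e) m ≤ hilbF (Vw ℝ (wt (n := n) W)) (S.P e) (m * W) := by
    refine hilbF_comap_le hV (restrictTotalDegree (ZI n) ℝ) (S.P e) (rename Sum.inr) ?_
    intro F hF
    rw [mem_restrictTotalDegree] at hF
    rw [H580.mem_Vw]
    intro d hd
    rw [support_rename_of_injective Sum.inr_injective, Finset.mem_image] at hd
    obtain ⟨d', hd', rfl⟩ := hd
    have h2 := (le_totalDegree hd').trans hF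
    rw [Finsupp.weight_apply, Finsupp.sum_mapDomain_index (by simp) (by intros; simp [add_mul])]
    calc (d'.sum fun i c => c • wt W (Sum.inr i : HL n)) = (d'.sum fun _ c => c) * W := by
          rw [Finsupp.sum_mul]; rfl
      _ ≤ m * W := Nat.mul_le_mul_right _ h2
  have h3 := H269.side_up S e.1 {e} (by simpa using he) (by simp) (m * W)
  simp only [Finset.mem_singleton, iInf_iInf_eq_left, pow_zero, one_mul, add_zero] at h3
  refine h1.trans (h3.trans (le_of_eq ?_))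
  rw [show m * W + W = W * (m + 1) by ring, mul_pow]
  ring

/-- **[C10]** the number of bad points -/
theorem bad_bound {A : Finset (ZZ n × ZZ n)} {W D σ v : ℕ} (S : Side n A W D σ v) (hv : v = 0)
    (P : Finset (E n)) (B : E n ≃ₗᵢ[ℝ] E n) {t : ℕ} (ht : (dists P).card ≤ t)
    {e : ZZ n × ZZ n} (he : e ∈ A) (Y : Finset (ZZ n)) (hY : Y ⊆ H84.Sg P B)
    (hbad : ∀ s ∈ Y, Bad (S.Pr e) (pt s)) : Y.card ≤ 2 * (4 * t + 1) ^ σ := by
  classical
  have hsep : H455.Sep (fun z : ZZ n => pt z) (4 * t) Y := by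
    intro z hz
    obtain ⟨s, hs, rfl⟩ := H84.mem_Sg.1 (hY hz)
    obtain ⟨f, h1, h2, h3⟩ := H686.exists_sep P B s hs
    refine ⟨f, h1.trans (Nat.mul_le_mul_left _ ht), h2, ?_⟩
    intro z' hz' hne
    obtain ⟨s', hs', rfl⟩ := H84.mem_Sg.1 (hY hz')
    exact h3 s' hs' fun h => hne (by rw [h])
  have hrk := hsep.rkY_eq
  have hcard : (Y.image fun z : ZZ n => pt z).card = Y.card :=
    Finset.card_image_of_injective _ pt_injective
  have h1 := H431.card_bad_le (S.Pr e) (hF_Pr_le S hv he) ?_ (Y.image fun z : ZZ n => pt z)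
    (D := 4 * t) (by rw [hrk, hcard]) ?_
  · rwa [hcard] at h1
  · intro m
    refine H431.one_le_hF _ ?_ m
    intro h
    have h1 : (1 : MvPolynomial (ZI n) ℝ) ∈ S.Pr e := by rw [h]; trivial
    have h2 := S.eval_eq_zero_of_mem_Pr he h1
    simp at h2
  · intro p hp
    obtain ⟨z, hz, rfl⟩ := Finset.mem_image.1 hp
    exact hbad z hz

end Vale.Agent.P054.T2.H819
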