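import Vale.Agent.P054.T2.H686.Assembly
import Vale.Agent.P054.T2.H428.BadC

/-!
# P054 / T2: the input `BadCount n` of 686's assembly
-/

namespace Vale.Agent.P054.T2.H819

open Vale.Agent.P054.T2.H686 Vale.Agent.P054.T2.SecC

theorem badCount (n : ℕ) : BadCount n := by
  intro A W D σ S P B t ht e he Y hY hbad
  exact side_bad S he P B ht Y (by rw [← Sz_eq_Sg]; exact hY) hbad

/-- `MainIneq n` from the output of sections A and B alone -/
theorem mainIneq_of_mainAB {n : ℕ} (hn : 2 ≤ n) (hAB : MainAB n) : MainIneq n :=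
  mainIneq_of_AB hn (badCount n) hAB

end Vale.Agent.P054.T2.H819
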