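import Vale.Agent.P054.T2.H819.QMG
import Vale.Agent.P054.T2.H192.Coord
import Vale.Agent.P054.T2.H580.Sys
import Vale.Agent.P054.T2.H930.Block

/-!
# P054 / T2: lower bound of the Hilbert function of a germ ideal with weights
-/

open MvPolynomial Finset Module
open Vale.Agent.P054.T2.H580 (hilbF IsFilt Vw)
open Vale.Agent.P054.T2.H930 (germ grad)

namespace Vale.Agent.P054.T2.H819

variable {K : Type*} [Field K] {e : ℕ}

theorem lexOrder_monomial (d : Fin e →₀ ℕ) {a : K} (ha : a ≠ 0) :
    MvPowerSeries.lexOrder (MvPowerSeries.monomial d a : MvPowerSeries (Fin e) K) =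
      ((toLex d : Lex (Fin e →₀ ℕ)) : WithTop _) := by
  classical
  have h0 : (MvPowerSeries.monomial d a : MvPowerSeries (Fin e) K) ≠ 0 := by
    intro h
    have h2 := congrArg (MvPowerSeries.coeff d) h
    rw [MvPowerSeries.coeff_monomial_same, map_zero] at h2
    exact ha h2
  obtain ⟨d', hd'⟩ := MvPowerSeries.exists_finsupp_eq_lexOrder_of_ne_zero h0
  have hc := MvPowerSeries.coeff_ne_zero_of_lexOrder hd'.symm
  rw [MvPowerSeries.coeff_monomial] at hc
  have : d' = d := by
    by_contra hne
    exact hc (if_neg hne)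
  rw [hd', this]

section low

variable {R : Type*} [CommRing R] [Algebra K R] {V : ℕ → Submodule K R}

/-- **Lower bound with weights**: `φ ζ_l = y_l`, `ζ_l ∈ V (d_l)`. -/
theorem low (hV : IsFilt V) (φ : R →ₐ[K] MvPowerSeries (Fin e) K) (ζ : Fin e → R) (d : Fin e → ℕ)
    (hζ : ∀ l, ζ l ∈ V (d l)) (hd : ∀ l, 1 ≤ d l) (hφ : ∀ l, φ (ζ l) = MvPowerSeries.X l) (n : ℕ) :
    n ^ e ≤ e ^ e * (∏ l, d l) * hilbF V (RingHom.ker φ) n := by
  classical
  rw [hilbF_ker]
  have hfin : Module.Finite K ((V n).map φ.toLinearMap) := by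
    have := hV.fin n
    infer_instance
  set box : Finset (Fin e → ℕ) := Fintype.piFinset fun l => range (n / (e * d l) + 1) with hbox
  set S : Finset (Fin e →₀ ℕ) := box.map
    ⟨fun α => Finsupp.equivFunOnFinite.symm α, Finsupp.equivFunOnFinite.symm.injective⟩ with hS
  have hScard : S.card = ∏ l, (n / (e * d l) + 1) := by
    rw [hS, Finset.card_map, hbox, Fintype.card_piFinset]
    simp
  have hpow : ∀ (α : Fin e →₀ ℕ), ∏ l, ζ l ^ α l ∈ V (∑ l, α l * d l) := by
    intro α
    have : ∀ s : Finset (Fin e), ∏ l ∈ s, ζ l ^ α l ∈ V (∑ l ∈ s, α l * d l) := by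
      intro s
      induction s using Finset.induction_on with
      | empty => simpa using hV.one
      | insert l s hl ih =>
        rw [Finset.prod_insert hl, Finset.sum_insert hl]
        exact hV.mul (hV.pow_mem (hζ l) _) ih
    exact this univ
  have himg : ∀ (α : Fin e →₀ ℕ), φ (∏ l, ζ l ^ α l) = MvPowerSeries.monomial α 1 := by
    intro α
    rw [map_prod]
    simp_rw [map_pow, hφ]
    have h2 : (MvPolynomial.monomial α (1 : K) : MvPolynomial (Fin e) K) = ∏ l, X l ^ α l := by
      rw [MvPolynomial.monomial_eq, C_1, one_mul, Finsupp.prod_fintype _ _ (fun i => pow_zero _)]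
    have h3 := congrArg (MvPolynomial.coeToMvPowerSeries.ringHom (σ := Fin e) (R := K)) h2
    rw [map_prod] at h3
    simp only [map_pow, MvPolynomial.coeToMvPowerSeries.ringHom_apply, MvPolynomial.coe_X,
      MvPolynomial.coe_monomial] at h3
    exact h3.symm
  have hSE : ∀ α ∈ S, α ∈ Ex ((V n).map φ.toLinearMap) := by
    intro α hα
    obtain ⟨β, hβ, rfl⟩ := Finset.mem_map.1 hα
    rw [hbox, Fintype.mem_piFinset] at hβ
    refine ⟨_, ⟨∏ l, ζ l ^ (Finsupp.equivFunOnFinite.symm β) l, ?_, rfl⟩, ?_⟩
    · refine hV.mono ?_ (hpow _)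
      calc ∑ l, (Finsupp.equivFunOnFinite.symm β) l * d l ≤ ∑ _l : Fin e, n / e := by
            refine Finset.sum_le_sum fun l _ => ?_
            have h1 : β l ≤ n / (e * d l) := Nat.lt_succ_iff.1 (Finset.mem_range.1 (hβ l))
            change β l * d l ≤ n / e
            refine (Nat.mul_le_mul_right _ h1).trans ?_
            rw [← Nat.div_div_eq_div_mul]
            exact Nat.div_mul_le_self _ _
        _ = e * (n / e) := by rw [Finset.sum_const, Finset.card_univ, Fintype.card_fin, smul_eq_mul]
        _ ≤ n := Nat.mul_div_le n e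
    · change MvPowerSeries.lexOrder (φ _) = _
      rw [himg]
      exact lexOrder_monomial _ one_ne_zero
  have h1 := card_le_finrank _ S hSE
  rw [hScard] at h1
  have h2 : n ^ e ≤ e ^ e * (∏ l, d l) * ∏ l, (n / (e * d l) + 1) := by
    have h3 : ∀ l ∈ (univ : Finset (Fin e)), n ≤ e * d l * (n / (e * d l) + 1) := by
      intro l _
      have he : 0 < e := l.pos
      have h4 : 0 < e * d l := Nat.mul_pos he (hd l)
      have := Nat.lt_mul_div_succ n h4
      exact this.le
    calc n ^ e = ∏ _l : Fin e, n := by rw [Finset.prod_const, Finset.card_univ, Fintype.card_fin]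
      _ ≤ ∏ l, (e * d l * (n / (e * d l) + 1)) := Finset.prod_le_prod' h3
      _ = e ^ e * (∏ l, d l) * ∏ l, (n / (e * d l) + 1) := by
          rw [Finset.prod_mul_distrib, Finset.prod_mul_distrib, Finset.prod_const,
            Finset.card_univ, Fintype.card_fin]
  exact h2.trans (Nat.mul_le_mul_left _ h1)

end low

/-- a complement of an independent family -/
theorem exists_compl {X : Type*} [Fintype X] {c : ℕ} (G : Fin c → X → K)
    (hG : LinearIndependent K G) :
    ∃ a : Fin (Fintype.card X - c) → X → K, LinearIndependent K (Sum.elim a G) := by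
  classical
  obtain ⟨W', hW'⟩ := Submodule.exists_isCompl (Submodule.span K (Set.range G))
  have h1 : finrank K (Submodule.span K (Set.range G)) = c := by
    rw [finrank_span_eq_card hG, Fintype.card_fin]
  have h2 := Submodule.finrank_add_eq_of_isCompl hW'
  rw [h1, Module.finrank_fintype_fun_eq_card] at h2
  have h3 : finrank K W' = Fintype.card X - c := by omega
  let b := Module.finBasisOfFinrankEq K W' h3
  refine ⟨fun i => (b i : X → K), ?_⟩
  refine LinearIndependent.sum_type ?_ hG ?_
  · exact b.linearIndependent.map' W'.subtype (Submodule.ker_subtype W')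
  · have h4 : Submodule.span K (Set.range fun i => (b i : X → K)) ≤ W' := by
      rw [Submodule.span_le]
      rintro _ ⟨i, rfl⟩
      exact (b i).2
    exact (hW'.disjoint.symm).mono_left h4

variable {A B : Type*} [Fintype A] [DecidableEq A] [Fintype B] [DecidableEq B]

/-- local coordinates adapted to a block system -/
theorem exists_block_coords {m l v : ℕ} (p : A ⊕ B → K)
    (F : Fin (m + l) → MvPolynomial (A ⊕ B) K) (f : Fin m → MvPolynomial A K)
    (hF : ∀ i, F (Fin.castAdd l i) = rename Sum.inl (f i))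
    (hf : LinearIndependent K (fun i => grad (p ∘ Sum.inl) (f i)))
    (hh : LinearIndependent K (fun i : Fin l => fun b =>
      eval p (pderiv (Sum.inr b) (F (Fin.natAdd m i))))) (hlv : l + v = Fintype.card B) :
    ∃ a : Fin ((Fintype.card A - m) + v) → A ⊕ B → K,
      (∀ i b, a (Fin.castAdd v i) (Sum.inr b) = 0) ∧
      (∀ j x, a (Fin.natAdd _ j) (Sum.inl x) = 0) ∧
      LinearIndependent K (Sum.elim a (fun i => grad p (F i)) :
        Fin ((Fintype.card A - m) + v) ⊕ Fin (m + l) → A ⊕ B → K) := by
  classical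
  obtain ⟨a₁, ha₁⟩ := exists_compl _ hf
  obtain ⟨a₂', ha₂'⟩ := exists_compl _ hh
  have hv : Fintype.card B - l = v := by omega
  obtain ⟨a₂, ha₂⟩ : ∃ a₂ : Fin v → B → K, LinearIndependent K (Sum.elim a₂
      (fun i : Fin l => fun b => eval p (pderiv (Sum.inr b) (F (Fin.natAdd m i)))) :
        Fin v ⊕ Fin l → B → K) := by
    subst hv
    exact ⟨a₂', ha₂'⟩
  refine ⟨Fin.append (fun i => Sum.elim (a₁ i) 0) (fun j => Sum.elim 0 (a₂ j)), ?_, ?_, ?_⟩
  · intro i b
    rw [Fin.append_left]; rfl
  · intro j x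
    rw [Fin.append_right]; rfl
  · rw [Fintype.linearIndependent_iff] at ha₁ ha₂ ⊢
    intro g hg
    have hsum : ∀ x, ∑ i, g (Sum.inl (Fin.castAdd v i)) * (Sum.elim (a₁ i) 0 : A ⊕ B → K) x +
        ∑ j, g (Sum.inl (Fin.natAdd _ j)) * (Sum.elim 0 (a₂ j) : A ⊕ B → K) x +
        (∑ i, g (Sum.inr (Fin.castAdd l i)) * grad p (F (Fin.castAdd l i)) x +
        ∑ j, g (Sum.inr (Fin.natAdd m j)) * grad p (F (Fin.natAdd m j)) x) = 0 := by
      intro x
      have h1 := congrFun hg x
      rw [Fintype.sum_sum_type, Pi.add_apply, Finset.sum_apply, Finset.sum_apply,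
        Fin.sum_univ_add, Fin.sum_univ_add] at h1
      simpa [Fin.append_left, Fin.append_right] using h1
    -- `B`-components
    have hB := ha₂ (Sum.elim (fun j => g (Sum.inl (Fin.natAdd _ j)))
      (fun j => g (Sum.inr (Fin.natAdd m j)))) (by
      funext b
      have h1 := hsum (Sum.inr b)
      have h2 : ∑ i, g (Sum.inr (Fin.castAdd l i)) * grad p (F (Fin.castAdd l i)) (Sum.inr b) = 0 :=
        Finset.sum_eq_zero fun i _ => by
          rw [hF, H930.grad_rename_inl, Sum.elim_inr, mul_zero]
      rw [h2, zero_add] at h1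
      rw [Fintype.sum_sum_type, Pi.add_apply, Finset.sum_apply, Finset.sum_apply]
      simpa [grad] using h1)
    have hA := ha₁ (Sum.elim (fun i => g (Sum.inl (Fin.castAdd v i)))
      (fun i => g (Sum.inr (Fin.castAdd l i)))) (by
      funext x
      have h1 := hsum (Sum.inl x)
      have h2 : ∑ j, g (Sum.inr (Fin.natAdd m j)) * grad p (F (Fin.natAdd m j)) (Sum.inl x) = 0 :=
        Finset.sum_eq_zero fun j _ => by
          have := hB (Sum.inr j)
          rw [Sum.elim_inr] at this
          rw [this, zero_mul]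
      rw [h2, add_zero] at h1
      have h3 : ∀ i, grad p (F (Fin.castAdd l i)) (Sum.inl x) = grad (p ∘ Sum.inl) (f i) x := by
        intro i
        rw [hF, H930.grad_rename_inl, Sum.elim_inl]
      simp only [h3] at h1
      rw [Fintype.sum_sum_type, Pi.add_apply, Finset.sum_apply, Finset.sum_apply]
      simpa using h1)
    intro i
    rcases i with i | i
    · refine Fin.addCases (fun i => ?_) (fun j => ?_) i
      · exact hA (Sum.inl i)
      · exact hB (Sum.inl j)
    · refine Fin.addCases (fun i => ?_) (fun j => ?_) i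
      · exact hA (Sum.inr i)
      · exact hB (Sum.inr j)

/-- **Lower bound for the germ of a block system**: weights `w₁ ≥ 1` on `A`, `W` on `B`. -/
theorem low_block {V : ℕ → Submodule K (MvPolynomial (A ⊕ B) K)} (hV : IsFilt V) {W : ℕ}
    (hW : 1 ≤ W) (hA : ∀ x, (X (Sum.inl x) : MvPolynomial (A ⊕ B) K) ∈ V 1)
    (hB : ∀ b, (X (Sum.inr b) : MvPolynomial (A ⊕ B) K) ∈ V W) {m l v : ℕ} (p : A ⊕ B → K)
    (F : Fin (m + l) → MvPolynomial (A ⊕ B) K) (f : Fin m → MvPolynomial A K)
    (hF : ∀ i, F (Fin.castAdd l i) = rename Sum.inl (f i))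
    (hf : LinearIndependent K (fun i => grad (p ∘ Sum.inl) (f i)))
    (hh : LinearIndependent K (fun i : Fin l => fun b =>
      eval p (pderiv (Sum.inr b) (F (Fin.natAdd m i))))) (hlv : l + v = Fintype.card B)
    (h0 : ∀ i, eval p (F i) = 0) (n : ℕ) :
    n ^ ((Fintype.card A - m) + v) ≤
      ((Fintype.card A - m) + v) ^ ((Fintype.card A - m) + v) * W ^ v *
        hilbF V (germ p F) n := by
  classical
  obtain ⟨a, ha1, ha2, ha3⟩ := exists_block_coords p F f hF hf hh hlv
  have hm : m ≤ Fintype.card A := by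
    have := hf.fintype_card_le_finrank
    rwa [Fintype.card_fin, Module.finrank_fintype_fun_eq_card] at this
  have hcard : Fintype.card (Fin ((Fintype.card A - m) + v)) + (m + l) =
      Fintype.card (A ⊕ B) := by
    rw [Fintype.card_fin, Fintype.card_sum]
    omega
  obtain ⟨φ, h1, h2, h3, -⟩ := H192.exists_germ_coord p F h0 a ha3 hcard
  have hker : germ p F = RingHom.ker φ := by
    ext G
    rw [RingHom.mem_ker]
    exact (H192.ker_eq_germ h3 G).symm
  rw [hker]
  have hC : ∀ c : K, (C c : MvPolynomial (A ⊕ B) K) ∈ V 0 := by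
    intro c
    have := (V 0).smul_mem c hV.one
    rwa [MvPolynomial.smul_eq_C_mul, mul_one] at this
  have hlev : ∀ (c : K) (x : A ⊕ B) (q : K) (d : ℕ), (X x : MvPolynomial (A ⊕ B) K) ∈ V d →
      C c * (X x - C q) ∈ V d := by
    intro c x q d hx
    have h5 := hV.mul (hC c) ((V d).sub_mem hx (hV.mono (Nat.zero_le _) (hC q)))
    rwa [zero_add] at h5
  have := low hV φ (H192.zc p a) (Fin.append (fun _ => 1) (fun _ => W)) (by
    intro i
    unfold H192.zc
    refine Submodule.sum_mem _ fun x _ => ?_
    refine Fin.addCases (fun i => ?_) (fun j => ?_) i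
    · rw [Fin.append_left]
      rcases x with x | x
      · exact hlev _ _ _ _ (hA x)
      · rw [ha1, C_0, zero_mul]; exact Submodule.zero_mem _
    · rw [Fin.append_right]
      rcases x with x | x
      · rw [ha2, C_0, zero_mul]; exact Submodule.zero_mem _
      · exact hlev _ _ _ _ (hB x)) (by
    intro i
    refine Fin.addCases (fun i => ?_) (fun j => ?_) i
    · rw [Fin.append_left]
    · rw [Fin.append_right]; exact hW) (by
    intro i
    have := h1 (X i)
    rw [aeval_X] at this
    rw [this]
    exact MvPolynomial.coe_X i) n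
  rw [Fin.prod_univ_add] at this
  simpa [Fin.append_left, Fin.append_right] using this

end Vale.Agent.P054.T2.H819
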