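import Vale.Agent.P054.T2.H819.Sumset
import Vale.Agent.P054.T2.H580.Filt
import Mathlib.RingTheory.MvPowerSeries.LexOrder
import Mathlib.RingTheory.MvPowerSeries.NoZeroDivisors

/-!
# P054 / T2: quasi-monotonicity of the Hilbert function of a germ prime

`Ex W` = the leading (lexicographically smallest) exponents of the elements of a subspace `W` of a
power series ring.  For finite-dimensional `W` their number is the dimension of `W`.
`qm`: if `φ : k[X] → k[[y_1, .., y_e]]` and `ζ_l ∈ V w₀` with `φ ζ_l = y_l`, then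
`m ^ e * hilbF V (ker φ) n ≤ C_e * hilbF V (ker φ) (m * n)` for all `n ≥ w₀` and all `m`.
-/

open MvPolynomial Finset Module

namespace Vale.Agent.P054.T2.H819

variable {K : Type*} [Field K] {e : ℕ}

/-- the leading exponents of a subspace -/
def Ex (W : Submodule K (MvPowerSeries (Fin e) K)) : Set (Fin e →₀ ℕ) :=
  {d | ∃ f ∈ W, MvPowerSeries.lexOrder f = ((toLex d : Lex (Fin e →₀ ℕ)) : WithTop _)}

theorem Ex_mono {W W' : Submodule K (MvPowerSeries (Fin e) K)} (h : W ≤ W') : Ex W ⊆ Ex W' := by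
  rintro d ⟨f, hf, hd⟩
  exact ⟨f, h hf, hd⟩

theorem add_mem_Ex {W W' W'' : Submodule K (MvPowerSeries (Fin e) K)}
    (h : ∀ f ∈ W, ∀ g ∈ W', f * g ∈ W'') {a b : Fin e →₀ ℕ} (ha : a ∈ Ex W) (hb : b ∈ Ex W') :
    a + b ∈ Ex W'' := by
  obtain ⟨f, hf, hfa⟩ := ha
  obtain ⟨g, hg, hgb⟩ := hb
  refine ⟨f * g, h f hf g hg, ?_⟩
  rw [MvPowerSeries.lexOrder_mul, hfa, hgb]
  rfl

/-- elements with different leading exponents are independent -/
theorem card_le_finrank (W : Submodule K (MvPowerSeries (Fin e) K)) [Module.Finite K W]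
    (S : Finset (Fin e →₀ ℕ)) (hS : ∀ d ∈ S, d ∈ Ex W) : S.card ≤ finrank K W := by
  classical
  choose! f hfW hf using hS
  have hli : LinearIndependent K (fun d : S => (⟨f d, hfW d d.2⟩ : W)) := by
    have h0 : LinearIndependent K (fun d : S => f d) := by
      rw [linearIndependent_iff']
      intro s g hg
      by_contra hcon
      push Not at hcon
      obtain ⟨i, hi, hgi⟩ := hcon
      obtain ⟨j, hj, hmin⟩ := Finset.exists_min_image (s.filter fun i => g i ≠ 0)
        (fun i => (toLex (i : Fin e →₀ ℕ) : Lex (Fin e →₀ ℕ))) ⟨i, Finset.mem_filter.2 ⟨hi, hgi⟩⟩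
      obtain ⟨hjs, hgj⟩ := Finset.mem_filter.1 hj
      have h1 : MvPowerSeries.coeff (j : Fin e →₀ ℕ) (∑ i ∈ s, g i • f i) = 0 := by
        rw [hg, map_zero]
      rw [map_sum, Finset.sum_eq_single_of_mem j hjs] at h1
      · rw [map_smul, smul_eq_mul] at h1
        exact mul_ne_zero hgj (MvPowerSeries.coeff_ne_zero_of_lexOrder (hf j j.2).symm) h1
      · intro i' hi' hne
        rw [map_smul, smul_eq_mul]
        by_cases hgi' : g i' = 0
        · rw [hgi', zero_mul]
        · rw [MvPowerSeries.coeff_eq_zero_of_lt_lexOrder, mul_zero]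
          rw [hf i' i'.2, WithTop.coe_lt_coe]
          refine lt_of_le_of_ne (hmin i' (Finset.mem_filter.2 ⟨hi', hgi'⟩)) ?_
          intro hc
          exact hne (Subtype.ext (toLex.injective hc).symm)
    exact LinearIndependent.of_comp W.subtype h0
  have := hli.fintype_card_le_finrank
  rwa [Fintype.card_coe] at this

theorem Ex_finite (W : Submodule K (MvPowerSeries (Fin e) K)) [Module.Finite K W] :
    (Ex W).Finite := by
  by_contra h
  obtain ⟨t, ht, htc⟩ := Set.Infinite.exists_subset_card_eq h (finrank K W + 1)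
  have := card_le_finrank W t (fun d hd => ht hd)
  omega

theorem finrank_le_card (W : Submodule K (MvPowerSeries (Fin e) K)) [Module.Finite K W]
    (S : Finset (Fin e →₀ ℕ)) (hS : ∀ d ∈ Ex W, d ∈ S) : finrank K W ≤ S.card := by
  classical
  let T : W →ₗ[K] (S → K) :=
    { toFun := fun f d => MvPowerSeries.coeff (d : Fin e →₀ ℕ) (f : MvPowerSeries (Fin e) K)
      map_add' := fun f g => by funext d; simp
      map_smul' := fun c f => by funext d; simp }
  have hT : Function.Injective T := by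
    rw [injective_iff_map_eq_zero]
    intro f hf
    by_contra hne
    have hne' : (f : MvPowerSeries (Fin e) K) ≠ 0 := fun h => hne (Subtype.ext h)
    obtain ⟨d, hd⟩ := MvPowerSeries.exists_finsupp_eq_lexOrder_of_ne_zero hne'
    have hdS : d ∈ S := hS d ⟨f, f.2, hd⟩
    exact MvPowerSeries.coeff_ne_zero_of_lexOrder hd.symm (congrFun hf ⟨d, hdS⟩)
  have := LinearMap.finrank_le_finrank_of_injective hT
  simpa using this

section qm

variable {R : Type*} [CommRing R] [Algebra K R] {V : ℕ → Submodule K R}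

theorem hilbF_ker (V : ℕ → Submodule K R) {B : Type*} [CommRing B] [Algebra K B] (φ : R →ₐ[K] B)
    (n : ℕ) : H580.hilbF V (RingHom.ker φ) n = finrank K ((V n).map φ.toLinearMap) := by
  unfold H580.hilbF
  have h1 : Function.Injective (Ideal.kerLiftAlg φ).toLinearMap := Ideal.kerLiftAlg_injective φ
  have h2 : ((V n).map (Ideal.Quotient.mkₐ K (RingHom.ker φ)).toLinearMap).map
      (Ideal.kerLiftAlg φ).toLinearMap = (V n).map φ.toLinearMap := by
    rw [← Submodule.map_comp]
    congr 1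
  rw [← h2]
  exact (LinearEquiv.finrank_eq (Submodule.equivMapOfInjective _ h1 _))

/-- **Quasi-monotonicity.** -/
theorem qm (hV : H580.IsFilt V) (φ : R →ₐ[K] MvPowerSeries (Fin e) K) (ζ : Fin e → R) {w₀ : ℕ}
    (hζ : ∀ l, ζ l ∈ V w₀) (hφ : ∀ l, φ (ζ l) = MvPowerSeries.X l) {n : ℕ} (hn : w₀ ≤ n) (m : ℕ) :
    m ^ e * H580.hilbF V (RingHom.ker φ) n ≤ CG e * H580.hilbF V (RingHom.ker φ) (m * n) := by
  classical
  rw [hilbF_ker, hilbF_ker]
  have hfin : ∀ n, Module.Finite K ((V n).map φ.toLinearMap) := fun n => by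
    have := hV.fin n
    infer_instance
  have := hfin n
  set S : Finset (Fin e →₀ ℕ) := (Ex_finite ((V n).map φ.toLinearMap)).toFinset with hS
  have hSmem : ∀ d, d ∈ S ↔ d ∈ Ex ((V n).map φ.toLinearMap) := fun d => by simp [hS]
  have h0 : (0 : Fin e →₀ ℕ) ∈ S := by
    rw [hSmem]
    refine ⟨φ 1, ⟨1, hV.mono (Nat.zero_le n) hV.one, rfl⟩, ?_⟩
    rw [map_one]
    obtain ⟨d, hd⟩ := MvPowerSeries.exists_finsupp_eq_lexOrder_of_ne_zero
      (one_ne_zero : (1 : MvPowerSeries (Fin e) K) ≠ 0)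
    have hc := MvPowerSeries.coeff_ne_zero_of_lexOrder hd.symm
    rw [MvPowerSeries.coeff_one] at hc
    have hd0 : d = 0 := by
      by_contra hne
      exact hc (if_neg hne)
    rw [hd, hd0]
  have h1 : ∀ l, Finsupp.single l 1 ∈ S := by
    intro l
    rw [hSmem]
    refine ⟨φ (ζ l), ⟨ζ l, hV.mono hn (hζ l), rfl⟩, ?_⟩
    rw [hφ]
    have hX0 : (MvPowerSeries.X l : MvPowerSeries (Fin e) K) ≠ 0 := by
      intro h
      have h2 := congrArg (MvPowerSeries.coeff (Finsupp.single l 1)) h
      rw [MvPowerSeries.coeff_X, if_pos rfl, map_zero] at h2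
      exact one_ne_zero h2
    obtain ⟨d, hd⟩ := MvPowerSeries.exists_finsupp_eq_lexOrder_of_ne_zero hX0
    have hc := MvPowerSeries.coeff_ne_zero_of_lexOrder hd.symm
    rw [MvPowerSeries.coeff_X] at hc
    have hd0 : d = Finsupp.single l 1 := by
      by_contra hne
      exact hc (if_neg hne)
    rw [hd, hd0]
  have hks : ∀ m, ∀ d ∈ ks S m, d ∈ Ex ((V (m * n)).map φ.toLinearMap) := by
    intro m
    induction m with
    | zero =>
      intro d hd
      rw [ks_zero, Finset.mem_singleton] at hd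
      subst hd
      have := (hSmem 0).1 h0
      obtain ⟨d, hd⟩ := MvPowerSeries.exists_finsupp_eq_lexOrder_of_ne_zero
        (one_ne_zero : (1 : MvPowerSeries (Fin e) K) ≠ 0)
      have hc := MvPowerSeries.coeff_ne_zero_of_lexOrder hd.symm
      rw [MvPowerSeries.coeff_one] at hc
      have hd0 : d = 0 := by
        by_contra hne
        exact hc (if_neg hne)
      refine ⟨φ 1, ⟨1, hV.mono (Nat.zero_le _) hV.one, rfl⟩, ?_⟩
      rw [map_one, hd, hd0]
    | succ m ih =>
      intro d hd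
      rw [ks_succ] at hd
      obtain ⟨a, ha, b, hb, rfl⟩ := Finset.mem_add.1 hd
      refine add_mem_Ex ?_ (ih a ha) ((hSmem b).1 hb)
      rintro _ ⟨f, hf, rfl⟩ _ ⟨g, hg, rfl⟩
      refine ⟨f * g, ?_, map_mul φ f g⟩
      rw [Nat.succ_mul]
      exact hV.mul hf hg
  have := hfin (m * n)
  calc m ^ e * finrank K ((V n).map φ.toLinearMap) ≤ m ^ e * S.card :=
        Nat.mul_le_mul_left _ (finrank_le_card _ S fun d hd => (hSmem d).2 hd)
    _ ≤ CG e * (ks S m).card := card_le_ks S h0 h1 m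
    _ ≤ CG e * finrank K ((V (m * n)).map φ.toLinearMap) :=
        Nat.mul_le_mul_left _ (card_le_finrank _ _ (hks m))

end qm

end Vale.Agent.P054.T2.H819
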