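import Mathlib.Combinatorics.Additive.CauchyDavenport
import Mathlib.Algebra.Order.Group.Nat
import Mathlib.Data.Finsupp.Basic
import Mathlib.Data.Fin.Tuple.Basic
import Mathlib.Algebra.BigOperators.Group.Finset.Basic
import Mathlib.Tactic

/-!
# P054 / T2: growth of iterated sumsets

`ks S m` = the `m`-fold sumset.  If `S ⊆ ℕ^e` contains `x₀` and all `x₀ + e_i` then
`m ^ e * |S| ≤ C_e * |m S|` with a constant which depends only on `e`.
-/

open Finset
open scoped Pointwise

namespace Vale.Agent.P054.T2.H819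

section basic

variable {G : Type*} [AddCommMonoid G] [DecidableEq G]

/-- the `m`-fold sumset -/
def ks (S : Finset G) : ℕ → Finset G
  | 0 => {0}
  | m + 1 => ks S m + S

theorem ks_zero (S : Finset G) : ks S 0 = {0} := rfl

theorem ks_succ (S : Finset G) (m : ℕ) : ks S (m + 1) = ks S m + S := rfl

theorem ks_one (S : Finset G) : ks S 1 = S := by
  rw [ks_succ, ks_zero, Finset.singleton_zero, zero_add]

theorem ks_add (S : Finset G) (a b : ℕ) : ks S (a + b) = ks S a + ks S b := by
  induction b with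
  | zero => rw [ks_zero, Finset.singleton_zero, add_zero, add_zero]
  | succ b ih => rw [← add_assoc, ks_succ, ih, ks_succ, add_assoc]

theorem ks_nonempty {S : Finset G} (h : S.Nonempty) (m : ℕ) : (ks S m).Nonempty := by
  induction m with
  | zero => exact ⟨0, by simp [ks_zero]⟩
  | succ m ih => rw [ks_succ]; exact ih.add h

theorem ks_mul (S : Finset G) (a b : ℕ) : ks (ks S a) b = ks S (a * b) := by
  induction b with
  | zero => simp [ks_zero]
  | succ b ih => rw [ks_succ, ih, ← ks_add]; rfl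

theorem ks_mono {S T : Finset G} (h : S ⊆ T) (m : ℕ) : ks S m ⊆ ks T m := by
  induction m with
  | zero => rfl
  | succ m ih => rw [ks_succ, ks_succ]; exact Finset.add_subset_add ih h

theorem ks_image {G' : Type*} [AddCommMonoid G'] [DecidableEq G'] (f : G →+ G') (S : Finset G)
    (m : ℕ) : (ks S m).image f = ks (S.image f) m := by
  induction m with
  | zero => simp [ks_zero]
  | succ m ih => rw [ks_succ, ks_succ, Finset.image_add, ih]

end basic

section cancel

variable {G : Type*} [AddCommMonoid G] [IsCancelAdd G] [DecidableEq G]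

theorem card_ks_mono {S : Finset G} (h : S.Nonempty) {a b : ℕ} (hab : a ≤ b) :
    (ks S a).card ≤ (ks S b).card := by
  obtain ⟨c, rfl⟩ := Nat.exists_eq_add_of_le hab
  rw [ks_add]
  exact Finset.card_le_card_add_right (ks_nonempty h c)

/-- growth hypothesis -/
def Grow (D : Set G) (C e : ℕ) : Prop :=
  ∀ (S : Finset G) (x₀ : G), x₀ ∈ S → (∀ d ∈ D, x₀ + d ∈ S) →
    ∀ m, m ^ e * S.card ≤ C * (ks S m).card

end cancel

theorem card_ks_nat {S : Finset ℕ} (h : S.Nonempty) (m : ℕ) :
    m * (S.card - 1) + 1 ≤ (ks S m).card := by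
  induction m with
  | zero => simp [ks_zero]
  | succ m ih =>
    rw [ks_succ]
    have := cauchy_davenport_add_of_linearOrder_isCancelAdd (ks_nonempty h m) h
    have h1 : 1 ≤ S.card := h.card_pos
    have e1 : (m + 1) * (S.card - 1) + 1 = (m * (S.card - 1) + 1) + (S.card - 1) := by ring
    rw [e1]
    omega

theorem grow_zero {G : Type*} [AddCommMonoid G] [DecidableEq G] [Subsingleton G]
    (D : Set G) : Grow D 1 0 := by
  intro S x₀ hx _ m
  have h1 : S.card ≤ 1 := Finset.card_le_one_of_subsingleton S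
  have h2 : 1 ≤ (ks S m).card := (ks_nonempty ⟨x₀, hx⟩ m).card_pos
  simpa using h1.trans h2

/-- the fibre lemma: `A` in one fibre, `B` arbitrary -/
theorem card_fibre_add {G : Type*} [AddCommMonoid G] [IsCancelAdd G] [DecidableEq G]
    (A : Finset G) (t : ℕ) (B : Finset (G × ℕ)) (X : Finset (G × ℕ))
    (hX : ∀ x ∈ A, ∀ y ∈ B, (x, t) + y ∈ X) :
    A.card * (B.image Prod.snd).card ≤ X.card := by
  classical
  have hg : ∀ y ∈ B.image Prod.snd, ∃ b ∈ B, b.2 = y := fun y hy => by
    obtain ⟨b, hb, hb'⟩ := Finset.mem_image.1 hy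
    exact ⟨b, hb, hb'⟩
  choose! g hgB hg2 using hg
  rw [← Finset.card_product]
  refine Finset.card_le_card_of_injOn (fun z => (z.1, t) + g z.2) ?_ ?_
  · intro z hz
    have hz' := Finset.mem_product.1 (Finset.mem_coe.1 hz)
    exact Finset.mem_coe.2 (hX _ hz'.1 _ (hgB _ hz'.2))
  · intro z hz w hw hzw
    have hz' := Finset.mem_product.1 (Finset.mem_coe.1 hz)
    have hw' := Finset.mem_product.1 (Finset.mem_coe.1 hw)
    have h2 : t + (g z.2).2 = t + (g w.2).2 := congrArg Prod.snd hzw
    have h3 : z.2 = w.2 := by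
      rw [← hg2 _ hz'.2, ← hg2 _ hw'.2]
      exact Nat.add_left_cancel h2
    have h1 : z.1 + (g z.2).1 = w.1 + (g w.2).1 := congrArg Prod.fst hzw
    rw [h3] at h1
    exact Prod.ext (add_right_cancel h1) h3

theorem grow_step {G : Type*} [AddCommMonoid G] [IsCancelAdd G] [DecidableEq G] {D : Set G}
    {C e : ℕ} (h : Grow D C e) (h0 : (0 : G) ∈ D) (hC : 1 ≤ C) :
    Grow (G := G × ℕ) ({p | p.1 ∈ D ∧ p.2 = 0} ∪ {(0, 1)}) (8 ^ (e + 1) * C) (e + 1) := by
  classical
  intro S x₀ hx hD m
  have hSne : S.Nonempty := ⟨x₀, hx⟩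
  -- small m
  have hsmall : ∀ m, m < 4 → m ^ (e + 1) * S.card ≤ 8 ^ (e + 1) * C * (ks S m).card := by
    intro m hm
    rcases Nat.eq_zero_or_pos m with rfl | hm0
    · simp
    · have h1 : S.card ≤ (ks S m).card := by
        have := card_ks_mono hSne (a := 1) (b := m) hm0
        rwa [ks_one] at this
      calc m ^ (e + 1) * S.card ≤ 8 ^ (e + 1) * (ks S m).card :=
            Nat.mul_le_mul (Nat.pow_le_pow_left (by omega) _) h1
        _ ≤ 8 ^ (e + 1) * C * (ks S m).card := by
            refine Nat.mul_le_mul_right _ ?_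
            exact Nat.le_mul_of_pos_right _ hC
  rcases lt_or_ge m 4 with hm | hm
  · exact hsmall m hm
  -- large m
  obtain ⟨q, hq1, hq2⟩ : ∃ q, 4 * q ≤ m ∧ m < 8 * q := ⟨m / 4, by omega, by omega⟩
  -- the largest fibre
  let π : G × ℕ → ℕ := Prod.snd
  obtain ⟨t, htmem, htmax⟩ := Finset.exists_max_image (S.image π)
    (fun t => (S.filter fun z => π z = t).card) (hSne.image _)
  set F := (S.image π).card with hF
  set St : Finset G := (S.filter fun z => π z = t).image Prod.fst with hSt
  have hStcard : St.card = (S.filter fun z => π z = t).card := by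
    refine Finset.card_image_of_injOn ?_
    intro a ha b hb hab
    have ha' := (Finset.mem_filter.1 (Finset.mem_coe.1 ha)).2
    have hb' := (Finset.mem_filter.1 (Finset.mem_coe.1 hb)).2
    exact Prod.ext hab (ha'.trans hb'.symm)
  have hSF : S.card ≤ St.card * F := by
    rw [Finset.card_eq_sum_card_image π S, hStcard, mul_comm, hF, ← smul_eq_mul]
    exact Finset.sum_le_card_nsmul _ _ _ htmax
  obtain ⟨x₁, hx₁⟩ : St.Nonempty := by
    obtain ⟨z, hz, hzt⟩ := Finset.mem_image.1 htmem
    exact ⟨z.1, Finset.mem_image.2 ⟨z, Finset.mem_filter.2 ⟨hz, hzt⟩, rfl⟩⟩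
  have hStS : ∀ x ∈ St, (x, t) ∈ S := by
    intro x hx
    obtain ⟨z, hz, rfl⟩ := Finset.mem_image.1 hx
    obtain ⟨hzS, hzt⟩ := Finset.mem_filter.1 hz
    rw [← hzt]
    exact hzS
  -- `S'`
  set D' : Finset G := (S.filter fun z => z.2 = x₀.2 ∧ ∃ d ∈ D, z.1 = x₀.1 + d).image Prod.fst
    with hD'
  have hD'mem : ∀ d ∈ D, x₀.1 + d ∈ D' := by
    intro d hd
    refine Finset.mem_image.2 ⟨x₀ + (d, 0), Finset.mem_filter.2 ⟨hD _ (Or.inl ⟨hd, rfl⟩), ?_⟩, rfl⟩
    exact ⟨by simp, d, hd, by simp⟩
  have hD'S : ∀ x ∈ D', (x, x₀.2) ∈ S := by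
    intro x hx
    obtain ⟨z, hz, rfl⟩ := Finset.mem_image.1 hx
    obtain ⟨hzS, hz2, -⟩ := Finset.mem_filter.1 hz
    rw [← hz2]
    exact hzS
  set S' : Finset G := St + D' with hS'
  have hS'card : St.card ≤ S'.card := by
    refine Finset.card_le_card_add_right ⟨x₀.1 + 0, hD'mem 0 h0⟩
  have hgrow := h S' (x₁ + x₀.1) (Finset.add_mem_add hx₁ (by simpa using hD'mem 0 h0))
    (fun d hd => by
      rw [add_assoc]
      exact Finset.add_mem_add hx₁ (hD'mem d hd)) q
  -- `ks S' q` in a fibre of `ks S (2 q)`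
  have hfib : ∀ q, ∀ x ∈ ks S' q, (x, q * (t + x₀.2)) ∈ ks S (2 * q) := by
    intro q
    induction q with
    | zero =>
      intro x hx
      rw [ks_zero, Finset.mem_singleton] at hx
      subst hx
      simp [ks_zero]
    | succ q ih =>
      intro x hx
      rw [ks_succ] at hx
      obtain ⟨y, hy, z, hz, rfl⟩ := Finset.mem_add.1 hx
      obtain ⟨u, hu, v, hv, rfl⟩ := Finset.mem_add.1 hz
      have e1 : 2 * (q + 1) = 2 * q + 1 + 1 := by ring
      rw [e1, ks_succ, ks_succ]
      have e2 : (y + (u + v), (q + 1) * (t + x₀.2)) =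
          ((y, q * (t + x₀.2)) + (u, t)) + (v, x₀.2) := by
        ext
        · simp [add_assoc]
        · simp only [Prod.snd_add]
          ring
      rw [e2]
      exact Finset.add_mem_add (Finset.add_mem_add (ih y hy) (hStS u hu)) (hD'S v hv)
  -- combine
  have hcomb : (ks S' q).card * ((ks S (2 * q)).image Prod.snd).card ≤ (ks S (4 * q)).card := by
    refine card_fibre_add _ (q * (t + x₀.2)) _ _ ?_
    intro x hx y hy
    have e1 : 4 * q = 2 * q + 2 * q := by ring
    rw [e1, ks_add]
    exact Finset.add_mem_add (hfib q x hx) hy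
  have hproj : (ks S (2 * q)).image Prod.snd = ks (S.image π) (2 * q) :=
    ks_image (AddMonoidHom.snd G ℕ) S (2 * q)
  have hF2 : 2 ≤ F := by
    have h1 : ({x₀.2, x₀.2 + 1} : Finset ℕ) ⊆ S.image π := by
      intro y hy
      rcases Finset.mem_insert.1 hy with rfl | hy
      · exact Finset.mem_image_of_mem π hx
      · rw [Finset.mem_singleton.1 hy]
        exact Finset.mem_image.2 ⟨x₀ + (0, 1), hD _ (Or.inr rfl), rfl⟩
    have h2 := Finset.card_le_card h1
    rwa [Finset.card_pair (by omega)] at h2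
  have hFq : q * F ≤ ((ks S (2 * q)).image Prod.snd).card := by
    rw [hproj]
    refine le_trans ?_ (card_ks_nat (hSne.image π) (2 * q))
    rw [← hF]
    obtain ⟨f, hf⟩ : ∃ f, F = f + 2 := ⟨F - 2, by omega⟩
    rw [hf]
    have : f + 2 - 1 = f + 1 := by omega
    rw [this]
    nlinarith
  calc m ^ (e + 1) * S.card ≤ (8 * q) ^ (e + 1) * (St.card * F) :=
        Nat.mul_le_mul (Nat.pow_le_pow_left hq2.le _) hSF
    _ = 8 ^ (e + 1) * ((q ^ e * St.card) * (q * F)) := by rw [mul_pow]; ring
    _ ≤ 8 ^ (e + 1) * ((C * (ks S' q).card) * ((ks S (2 * q)).image Prod.snd).card) := by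
        refine Nat.mul_le_mul_left _ (Nat.mul_le_mul ?_ hFq)
        exact (Nat.mul_le_mul_left _ hS'card).trans hgrow
    _ ≤ 8 ^ (e + 1) * (C * (ks S (4 * q)).card) := by
        refine Nat.mul_le_mul_left _ ?_
        rw [mul_assoc]
        exact Nat.mul_le_mul_left _ hcomb
    _ ≤ 8 ^ (e + 1) * C * (ks S m).card := by
        rw [← mul_assoc]
        exact Nat.mul_le_mul_left _ (card_ks_mono hSne hq1)

/-- transport along an injective homomorphism -/
theorem Grow.transport {G G' : Type*} [AddCommMonoid G] [DecidableEq G] [AddCommMonoid G']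
    [DecidableEq G'] {D : Set G} {D' : Set G'} {C e : ℕ} (h : Grow D C e) (f : G' →+ G)
    (hf : Function.Injective f) (hD : ∀ d ∈ D, ∃ d' ∈ D', f d' = d) : Grow D' C e := by
  intro S x₀ hx hS m
  have h1 := h (S.image f) (f x₀) (Finset.mem_image_of_mem f hx) (fun d hd => by
    obtain ⟨d', hd', rfl⟩ := hD d hd
    rw [← map_add]
    exact Finset.mem_image_of_mem f (hS d' hd')) m
  rwa [← ks_image, Finset.card_image_of_injective _ hf, Finset.card_image_of_injective _ hf] at h1

/-- the constants -/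
def CG : ℕ → ℕ
  | 0 => 1
  | e + 1 => 8 ^ (e + 1) * CG e

theorem CG_pos (e : ℕ) : 1 ≤ CG e := by
  induction e with
  | zero => exact le_rfl
  | succ e ih =>
    unfold CG
    exact Nat.mul_pos (by positivity) ih

/-- **Growth in `ℕ^e`.** -/
theorem grow_fin (e : ℕ) :
    Grow (G := Fin e → ℕ) ({0} ∪ Set.range fun i => Pi.single i 1) (CG e) e := by
  induction e with
  | zero => exact grow_zero _
  | succ e ih =>
    have h1 := grow_step ih (Or.inl rfl) (CG_pos e)
    let f : (Fin (e + 1) → ℕ) →+ (Fin e → ℕ) × ℕ :=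
      { toFun := fun v => (fun i => v i.castSucc, v (Fin.last e))
        map_zero' := rfl
        map_add' := fun _ _ => rfl }
    refine h1.transport f ?_ ?_
    · intro v w hvw
      have h2 : (fun i : Fin e => v i.castSucc) = fun i => w i.castSucc := congrArg Prod.fst hvw
      have h3 : v (Fin.last e) = w (Fin.last e) := congrArg Prod.snd hvw
      funext i
      refine Fin.lastCases h3 (fun i => congrFun h2 i) i
    · rintro d (⟨hd, hd2⟩ | hd)
      · rcases hd with hd | ⟨i, hi⟩
        · refine ⟨0, Or.inl rfl, ?_⟩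
          refine Prod.ext ?_ hd2.symm
          exact (Set.mem_singleton_iff.1 hd).symm
        · refine ⟨Pi.single i.castSucc 1, Or.inr ⟨i.castSucc, rfl⟩, ?_⟩
          refine Prod.ext ?_ ?_
          · rw [← hi]
            funext j
            change (Pi.single (M := fun _ => ℕ) i.castSucc 1) j.castSucc =
              Pi.single (M := fun _ => ℕ) i 1 j
            by_cases hij : j = i
            · subst hij; simp
            · rw [Pi.single_eq_of_ne hij, Pi.single_eq_of_ne]
              exact fun hc => hij (Fin.castSucc_injective _ hc)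
          · rw [hd2]
            change (Pi.single (M := fun _ => ℕ) i.castSucc 1) (Fin.last e) = _
            rw [Pi.single_eq_of_ne]
            exact (Fin.castSucc_lt_last i).ne'
      · rw [Set.mem_singleton_iff.1 hd]
        refine ⟨Pi.single (Fin.last e) 1, Or.inr ⟨Fin.last e, rfl⟩, ?_⟩
        refine Prod.ext ?_ ?_
        · funext j
          change (Pi.single (M := fun _ => ℕ) (Fin.last e) 1) j.castSucc = _
          rw [Pi.single_eq_of_ne]
          · rfl
          · exact (Fin.castSucc_lt_last j).ne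
        · change (Pi.single (M := fun _ => ℕ) (Fin.last e) 1) (Fin.last e) = _
          simp

/-- **Growth in `ℕ^e`**, finitely supported functions. -/
theorem card_le_ks {e : ℕ} (S : Finset (Fin e →₀ ℕ)) (h0 : 0 ∈ S)
    (h1 : ∀ i, Finsupp.single i 1 ∈ S) (m : ℕ) : m ^ e * S.card ≤ CG e * (ks S m).card := by
  classical
  have h2 : Grow (G := Fin e →₀ ℕ) ({0} ∪ Set.range fun i => Finsupp.single i 1) (CG e) e := by
    refine (grow_fin e).transport Finsupp.coeFnAddHom DFunLike.coe_injective ?_
    rintro d (hd | ⟨i, rfl⟩)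
    · exact ⟨0, Or.inl rfl, by rw [Set.mem_singleton_iff.1 hd]; rfl⟩
    · refine ⟨Finsupp.single i 1, Or.inr ⟨i, rfl⟩, ?_⟩
      exact Finsupp.single_eq_pi_single i 1
  refine h2 S 0 h0 ?_ m
  rintro d (hd | ⟨i, rfl⟩)
  · rw [Set.mem_singleton_iff.1 hd, add_zero]; exact h0
  · rw [zero_add]; exact h1 i

end Vale.Agent.P054.T2.H819
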