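import Vale.Agent.P054.T2.H819.QMG

/-!
# P054 / T2: sums over classes

* `QMon.sum_bound` : the final count for finitely many classes, infinitely many `k` per class;
* `card_classes` : the number of classes;
* `exists_sum_image` : the sum over the distinct primes (580's `additive`).
-/

open MvPolynomial Finset Module
open Vale.Agent.P054.T2.H580 (hilbF IsFilt)
open Vale.Agent.P054.T2.H441 (hF)

namespace Vale.Agent.P054.T2.H819

/-- eventually form of `QMon.of_one` -/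
theorem QMon.eventually {h : ℕ → ℕ} {s w₀ : ℕ} (hq : QMon h s w₀) {A D₁ N : ℕ}
    (h1 : ∃ a₀ : ℕ, ∀ k₀ : ℕ, ∃ k, k₀ ≤ k ∧
      A * (k + s).choose s ≤ D₁ * h ((k + 1) * (N + 1) + a₀)) :
    ∃ n₀, ∀ n, n₀ ≤ n → n ^ s * A ≤ (2 * (N + 2)) ^ s * s.factorial * CG s * D₁ * h n := by
  obtain ⟨a₀, h1⟩ := h1
  obtain ⟨k, hk, hk1⟩ := h1 (max a₀ w₀)
  exact ⟨_, hq.of_one (le_trans (le_max_left _ _) hk) (le_trans (le_max_right _ _) hk) hk1⟩

/-- **The sum over classes.** `a c` = size of the class `c`, `h c` = its Hilbert function. -/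
theorem QMon.sum_bound {κ : Type*} (CL : Finset κ) (a : κ → ℕ) (h : κ → ℕ → ℕ) {s w₀ : ℕ}
    (hq : ∀ c ∈ CL, QMon (h c) s w₀) {D₁ N M Δ a₁ n₁ : ℕ}
    (hsum : ∀ n, n₁ ≤ n → M * ∑ c ∈ CL, h c n ≤ Δ * (n + a₁) ^ s)
    (hcl : ∀ c ∈ CL, ∃ a₀ : ℕ, ∀ k₀ : ℕ, ∃ k, k₀ ≤ k ∧
      a c * (k + s).choose s ≤ D₁ * h c ((k + 1) * (N + 1) + a₀)) :
    M * ∑ c ∈ CL, a c ≤ (4 * (N + 2)) ^ s * s.factorial * CG s * D₁ * Δ := by
  classical
  have h1 : ∀ c ∈ CL, ∃ n₀, ∀ n, n₀ ≤ n →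
      n ^ s * a c ≤ (2 * (N + 2)) ^ s * s.factorial * CG s * D₁ * h c n := fun c hc =>
    (hq c hc).eventually (hcl c hc)
  choose! n₀ hn₀ using h1
  set n := ∑ c ∈ CL, n₀ c + n₁ + a₁ + 1 with hn
  have hn0 : 0 < n ^ s := by positivity
  have hnc : ∀ c ∈ CL, n₀ c ≤ n := by
    intro c hc
    have := Finset.single_le_sum (f := n₀) (fun i _ => Nat.zero_le _) hc
    omega
  set B := (2 * (N + 2)) ^ s * s.factorial * CG s * D₁ with hB
  have h2 : n ^ s * (M * ∑ c ∈ CL, a c) ≤ n ^ s * (2 ^ s * B * Δ) := by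
    calc n ^ s * (M * ∑ c ∈ CL, a c) = M * ∑ c ∈ CL, n ^ s * a c := by
          rw [← Finset.mul_sum]; ring
      _ ≤ M * ∑ c ∈ CL, B * h c n :=
          Nat.mul_le_mul_left _ (Finset.sum_le_sum fun c hc => hn₀ c hc n (hnc c hc))
      _ = B * (M * ∑ c ∈ CL, h c n) := by rw [← Finset.mul_sum]; ring
      _ ≤ B * (Δ * (n + a₁) ^ s) := Nat.mul_le_mul_left _ (hsum n (by omega))
      _ ≤ B * (Δ * (2 * n) ^ s) :=
          Nat.mul_le_mul_left _ (Nat.mul_le_mul_left _ (Nat.pow_le_pow_left (by omega) _))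
      _ = n ^ s * (2 ^ s * B * Δ) := by rw [mul_pow]; ring
  have h3 := Nat.le_of_mul_le_mul_left h2 hn0
  refine h3.trans (le_of_eq ?_)
  rw [hB, show (4 * (N + 2)) = 2 * (2 * (N + 2)) by ring, mul_pow 2 (2 * (N + 2))]
  ring

/-- **The number of classes.** -/
theorem card_classes {κ : Type*} (CL : Finset κ) (h : κ → ℕ → ℕ) {s M Δ a₁ n₁ n₂ Cl : ℕ}
    (hsum : ∀ n, n₁ ≤ n → M * ∑ c ∈ CL, h c n ≤ Δ * (n + a₁) ^ s)
    (hlow : ∀ c ∈ CL, ∀ n, n₂ ≤ n → n ^ s ≤ Cl * M * h c n) :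
    CL.card ≤ 2 ^ s * Cl * Δ := by
  classical
  set n := n₁ + n₂ + a₁ + 1 with hn
  have hn0 : 0 < n ^ s := by positivity
  have h2 : n ^ s * CL.card ≤ n ^ s * (2 ^ s * Cl * Δ) := by
    calc n ^ s * CL.card = ∑ c ∈ CL, n ^ s := by
          rw [Finset.sum_const, smul_eq_mul]; ring
      _ ≤ ∑ c ∈ CL, Cl * M * h c n := Finset.sum_le_sum fun c hc => hlow c hc n (by omega)
      _ = Cl * (M * ∑ c ∈ CL, h c n) := by rw [← Finset.mul_sum]; ring
      _ ≤ Cl * (Δ * (n + a₁) ^ s) := Nat.mul_le_mul_left _ (hsum n (by omega))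
      _ ≤ Cl * (Δ * (2 * n) ^ s) :=
          Nat.mul_le_mul_left _ (Nat.mul_le_mul_left _ (Nat.pow_le_pow_left (by omega) _))
      _ = n ^ s * (2 ^ s * Cl * Δ) := by rw [mul_pow]; ring
  exact Nat.le_of_mul_le_mul_left h2 hn0

section primes

variable {K : Type*} [Field K] {σ : Type*} [Finite σ] {V : ℕ → Submodule K (MvPolynomial σ K)}

omit [Finite σ] in
/-- the sum over the distinct primes `P i`, `i ∈ A` -/
theorem exists_sum_image (hV : IsFilt V) {w₀ : ℕ} (hX : ∀ i, (X i : MvPolynomial σ K) ∈ V w₀)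
    {ι : Type*} [DecidableEq (Ideal (MvPolynomial σ K))] (A : Finset ι)
    (P : ι → Ideal (MvPolynomial σ K)) (hprime : ∀ i ∈ A, (P i).IsPrime)
    (hinc : ∀ i ∈ A, ∀ j ∈ A, P i ≤ P j → P i = P j) :
    ∃ a : ℕ, ∀ n, ∑ q ∈ A.image P, hilbF V q n ≤ hilbF V (⨅ i ∈ A, P i) (n + a) := by
  classical
  have hQA : ∀ q ∈ A.image P, ∃ i ∈ A, P i = q := fun q hq => by
    obtain ⟨i, hi, h⟩ := Finset.mem_image.1 hq
    exact ⟨i, hi, h⟩
  obtain ⟨a, ha⟩ := hV.additive hX (fun q : A.image P => (q : Ideal (MvPolynomial σ K)))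
    (fun q => by
      obtain ⟨i, hi, hiq⟩ := hQA q q.2
      rw [← hiq]
      exact hprime i hi)
    (fun q q' hne hle => by
      obtain ⟨i, hi, hiq⟩ := hQA q q.2
      obtain ⟨j, hj, hjq⟩ := hQA q' q'.2
      refine hne (Subtype.ext ?_)
      rw [← hiq, ← hjq] at hle ⊢
      exact hinc i hi j hj hle)
  have hinf : (⨅ i ∈ A, P i) ≤ ⨅ q : A.image P, (q : Ideal (MvPolynomial σ K)) := by
    refine le_iInf fun q => ?_
    obtain ⟨i, hi, hiq⟩ := hQA q q.2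
    rw [← hiq]
    exact iInf₂_le i hi
  refine ⟨a, fun n => ?_⟩
  have h1 := ha n
  rw [Finset.sum_coe_sort (A.image P) (fun q => hilbF V q n)] at h1
  exact h1.trans (hV.hilbF_anti hinf _)

/-- incomparability from the growth of the total degree Hilbert functions -/
theorem incomparable {ι : Type*} (A : Finset ι) (P : ι → Ideal (MvPolynomial σ K)) {C s : ℕ}
    (hprime : ∀ i ∈ A, (P i).IsPrime) (hlow : ∀ i ∈ A, ∀ n, (n + s).choose s ≤ hF (P i) n)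
    (hup : ∀ i ∈ A, ∀ n, hF (P i) n ≤ C * (n + 1) ^ s) :
    ∀ i ∈ A, ∀ j ∈ A, P i ≤ P j → P i = P j := by
  intro i hi j hj hle
  by_contra hne
  exact H163.not_lt (hprime i hi) (hup i hi) (hlow j hj) (lt_of_le_of_ne hle hne)

/-- **[WC]**: the weighted final count on one leaf.  Classes = distinct primes. -/
theorem wc (hV : IsFilt V) {w₀ : ℕ} (hX : ∀ i, (X i : MvPolynomial σ K) ∈ V w₀)
    {ι : Type*} [DecidableEq (Ideal (MvPolynomial σ K))] (A : Finset ι)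
    (P : ι → Ideal (MvPolynomial σ K)) {s : ℕ} (hprime : ∀ i ∈ A, (P i).IsPrime)
    (hinc : ∀ i ∈ A, ∀ j ∈ A, P i ≤ P j → P i = P j)
    (hq : ∀ i ∈ A, QMon (hilbF V (P i)) s w₀) {D₁ N M Δ a₁ n₁ n₂ Cl G : ℕ} (hM : 1 ≤ M)
    (hU : ∀ n, n₁ ≤ n → M * hilbF V (⨅ i ∈ A, P i) n ≤ Δ * (n + a₁) ^ s)
    (hlow : ∀ i ∈ A, ∀ n, n₂ ≤ n → n ^ s ≤ Cl * M * hilbF V (P i) n)
    (hcl : ∀ i ∈ A, (A.filter fun j => P j = P i).card ≤ G ∨
      ∃ a₀ : ℕ, ∀ k₀ : ℕ, ∃ k, k₀ ≤ k ∧ (A.filter fun j => P j = P i).card * (k + s).choose s ≤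
        D₁ * hilbF V (P i) ((k + 1) * (N + 1) + a₀)) :
    A.card ≤ (4 * (N + 2)) ^ s * s.factorial * CG s * D₁ * Δ + 2 ^ s * Cl * Δ * G := by
  classical
  obtain ⟨a, ha⟩ := exists_sum_image hV hX A P hprime hinc
  have hsum : ∀ CL ⊆ A.image P, ∀ n, n₁ ≤ n →
      M * ∑ q ∈ CL, hilbF V q n ≤ Δ * (n + (a + a₁)) ^ s := by
    intro CL hCL n hn
    calc M * ∑ q ∈ CL, hilbF V q n ≤ M * ∑ q ∈ A.image P, hilbF V q n :=
          Nat.mul_le_mul_left _ (Finset.sum_le_sum_of_subset hCL)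
      _ ≤ M * hilbF V (⨅ i ∈ A, P i) (n + a) := Nat.mul_le_mul_left _ (ha n)
      _ ≤ Δ * (n + a + a₁) ^ s := hU _ (by omega)
      _ = _ := by rw [add_assoc]
  have hQA : ∀ q ∈ A.image P, ∃ i ∈ A, P i = q := fun q hq => by
    obtain ⟨i, hi, h⟩ := Finset.mem_image.1 hq
    exact ⟨i, hi, h⟩
  set sz : Ideal (MvPolynomial σ K) → ℕ := fun q => (A.filter fun j => P j = q).card with hsz
  have hcard : A.card = ∑ q ∈ A.image P, sz q := Finset.card_eq_sum_card_image P A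
  set C1 := (A.image P).filter fun q => ¬ sz q ≤ G with hC1
  set C2 := (A.image P).filter fun q => sz q ≤ G with hC2
  have h1 : M * ∑ q ∈ C1, sz q ≤ (4 * (N + 2)) ^ s * s.factorial * CG s * D₁ * Δ := by
    refine QMon.sum_bound C1 sz (fun q => hilbF V q) (w₀ := w₀) (n₁ := n₁) (a₁ := a + a₁) ?_
      (hsum C1 (Finset.filter_subset _ _)) ?_
    · intro q hqC
      obtain ⟨i, hi, rfl⟩ := hQA q (Finset.mem_of_mem_filter _ hqC)
      exact hq i hi
    · intro q hqC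
      obtain ⟨hqI, hqG⟩ := Finset.mem_filter.1 hqC
      obtain ⟨i, hi, rfl⟩ := hQA q hqI
      exact (hcl i hi).resolve_left hqG
  have h2 : C2.card ≤ 2 ^ s * Cl * Δ := by
    refine card_classes C2 (fun q => hilbF V q) (M := M) (n₁ := n₁) (n₂ := n₂) (a₁ := a + a₁)
      (hsum C2 (Finset.filter_subset _ _)) ?_
    intro q hqC
    obtain ⟨i, hi, rfl⟩ := hQA q (Finset.mem_of_mem_filter _ hqC)
    exact hlow i hi
  have h3 : ∑ q ∈ C2, sz q ≤ 2 ^ s * Cl * Δ * G := by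
    calc ∑ q ∈ C2, sz q ≤ ∑ q ∈ C2, G :=
          Finset.sum_le_sum fun q hqC => (Finset.mem_filter.1 hqC).2
      _ = C2.card * G := by rw [Finset.sum_const, smul_eq_mul]
      _ ≤ _ := Nat.mul_le_mul_right _ h2
  have h4 : ∑ q ∈ A.image P, sz q = ∑ q ∈ C2, sz q + ∑ q ∈ C1, sz q :=
    (Finset.sum_filter_add_sum_filter_not _ _ _).symm
  have h5 : ∑ q ∈ C1, sz q ≤ M * ∑ q ∈ C1, sz q := Nat.le_mul_of_pos_left _ hM
  omega

/-- **[PAIRS]**: the number of distinct primes -/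
theorem card_image_le (hV : IsFilt V) {w₀ : ℕ} (hX : ∀ i, (X i : MvPolynomial σ K) ∈ V w₀)
    {ι : Type*} [DecidableEq (Ideal (MvPolynomial σ K))] (A : Finset ι)
    (P : ι → Ideal (MvPolynomial σ K)) {s : ℕ} (hprime : ∀ i ∈ A, (P i).IsPrime)
    (hinc : ∀ i ∈ A, ∀ j ∈ A, P i ≤ P j → P i = P j) {M Δ a₁ n₁ n₂ Cl : ℕ}
    (hU : ∀ n, n₁ ≤ n → M * hilbF V (⨅ i ∈ A, P i) n ≤ Δ * (n + a₁) ^ s)
    (hlow : ∀ i ∈ A, ∀ n, n₂ ≤ n → n ^ s ≤ Cl * M * hilbF V (P i) n) :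
    (A.image P).card ≤ 2 ^ s * Cl * Δ := by
  classical
  obtain ⟨a, ha⟩ := exists_sum_image hV hX A P hprime hinc
  refine card_classes (A.image P) (fun q => hilbF V q) (M := M) (n₁ := n₁) (n₂ := n₂)
    (a₁ := a + a₁) ?_ ?_
  · intro n hn
    calc M * ∑ q ∈ A.image P, hilbF V q n ≤ M * hilbF V (⨅ i ∈ A, P i) (n + a) :=
          Nat.mul_le_mul_left _ (ha n)
      _ ≤ Δ * (n + a + a₁) ^ s := hU _ (by omega)
      _ = _ := by rw [add_assoc]
  · intro q hqC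
    obtain ⟨i, hi, rfl⟩ := Finset.mem_image.1 hqC
    exact hlow i hi

end primes

/-- **bad × bad**: inside one class the first end points are in a set of size `≤ b₁`, the second
ones in a set of size `≤ b₂` -/
theorem card_le_of_classes {ι S S' κ : Type*} [DecidableEq S] [DecidableEq S'] [DecidableEq κ]
    (A : Finset ι) (Q : ι → κ) (x : ι → S) (y : ι → S')
    (hinj : ∀ a ∈ A, ∀ b ∈ A, x a = x b → y a = y b → a = b) {N b₁ b₂ : ℕ}
    (hN : (A.image Q).card ≤ N)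
    (h1 : ∀ q ∈ A.image Q, ((A.filter fun a => Q a = q).image x).card ≤ b₁)
    (h2 : ∀ q ∈ A.image Q, ((A.filter fun a => Q a = q).image y).card ≤ b₂) :
    A.card ≤ N * (b₁ * b₂) := by
  classical
  rw [Finset.card_eq_sum_card_image Q A]
  calc ∑ q ∈ A.image Q, (A.filter fun a => Q a = q).card ≤ ∑ q ∈ A.image Q, b₁ * b₂ := by
        refine Finset.sum_le_sum fun q hq => ?_
        refine le_trans ?_ (Nat.mul_le_mul (h1 q hq) (h2 q hq))
        rw [← Finset.card_product]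
        refine Finset.card_le_card_of_injOn (fun a => (x a, y a)) ?_ ?_
        · intro a ha
          exact Finset.mem_coe.2 (Finset.mem_product.2
            ⟨Finset.mem_image_of_mem x ha, Finset.mem_image_of_mem y ha⟩)
        · intro a ha b hb hab
          exact hinj a (Finset.mem_of_mem_filter _ ha) b (Finset.mem_of_mem_filter _ hb)
            (congrArg Prod.fst hab) (congrArg Prod.snd hab)
    _ = (A.image Q).card * (b₁ * b₂) := by rw [Finset.sum_const, smul_eq_mul]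
    _ ≤ N * (b₁ * b₂) := Nat.mul_le_mul_right _ hN

end Vale.Agent.P054.T2.H819
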