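import Vale.Agent.P054.T2.H819.Low
import Vale.Agent.P054.T2.H819.WC
import Vale.Agent.P054.T2.H431.WPrime
import Vale.Agent.P054.T2.H930.Jets

/-!
# P054 / T2: the number of distinct germ primes of a block system

Variables `A ⊕ B`, weight `1` on `A` and `W` on `B`.  System: `m` equations in the `A`-variables
of degree `≤ W`, then `l` equations of level `D * W` whose `B`-gradients are independent,
`l + v = card B`.
-/

open MvPolynomial Finset Module
open Vale.Agent.P054.T2.H580 (hilbF IsFilt Vw)
open Vale.Agent.P054.T2.H930 (germ grad)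
open Vale.Agent.P054.T2.H441 (hF)

namespace Vale.Agent.P054.T2.H819

section total

variable {K : Type*} [Field K] {σ : Type*} [Fintype σ] [DecidableEq σ]

/-- lower bound of the total degree Hilbert function of a germ -/
theorem choose_le_hF_germ {c e : ℕ} (p : σ → K) (f : Fin c → MvPolynomial σ K)
    (hf : ∀ i, eval p (f i) = 0) (hind : LinearIndependent K (fun i => grad p (f i)))
    (he : e + c = Fintype.card σ) (n : ℕ) : (n + e).choose e ≤ hF (germ p f) n := by
  classical
  obtain ⟨e', he', φ, a, ζ, h1, h2, -, h4, -⟩ := H930.exists_germ p f hf hind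
  have hee : e' = e := by omega
  subst hee
  rw [H930.germ_eq_ker φ h4]
  have h5 : hF (RingHom.ker φ) n =
      finrank K ((restrictTotalDegree σ K n).map φ.toLinearMap) :=
    hilbF_ker (restrictTotalDegree σ K) φ n
  rw [h5, ← H930.finrank_restrictTotalDegree K e' n]
  have hV : IsFilt (restrictTotalDegree σ K) := H580.isFilt_total
  have := hV.fin n
  let L : restrictTotalDegree (Fin e') K n →ₗ[K] ((restrictTotalDegree σ K n).map φ.toLinearMap) :=
    { toFun := fun A => ⟨((A : MvPolynomial (Fin e') K) : MvPowerSeries (Fin e') K), by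
        refine ⟨aeval ζ (A : MvPolynomial (Fin e') K), ?_, h2 _⟩
        rw [SetLike.mem_coe, mem_restrictTotalDegree]
        refine (H431.totalDegree_aeval_le_of_le_one ζ (fun l => ?_) _).trans
          ((mem_restrictTotalDegree _ _ _).1 A.2)
        rw [h1]
        refine totalDegree_finsetSum_le fun j _ => ?_
        refine (totalDegree_mul _ _).trans ?_
        rw [totalDegree_C, zero_add, sub_eq_add_neg, ← C_neg]
        refine (totalDegree_add _ _).trans (max_le (totalDegree_X _).le ?_)
        rw [totalDegree_C]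
        exact Nat.zero_le _⟩
      map_add' := fun A B => Subtype.ext (by simp)
      map_smul' := fun c A => Subtype.ext (by simp) }
  refine LinearMap.finrank_le_finrank_of_injective (f := L) ?_
  intro A B hAB
  have h6 : ((A : MvPolynomial (Fin e') K) : MvPowerSeries (Fin e') K) =
      ((B : MvPolynomial (Fin e') K) : MvPowerSeries (Fin e') K) := congrArg Subtype.val hAB
  exact Subtype.ext (MvPolynomial.coe_injective (Fin e') K h6)

/-- distinct germ primes of one system are incomparable -/
theorem germ_incomparable {ι : Type*} (x : ι → σ → K) (S : Finset ι) {c : ℕ}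
    (f : Fin c → MvPolynomial σ K) (hev : ∀ i ∈ S, ∀ j, eval (x i) (f j) = 0)
    (hind : ∀ i ∈ S, LinearIndependent K (fun j => grad (x i) (f j))) :
    ∀ i ∈ S, ∀ j ∈ S, germ (x i) f ≤ germ (x j) f → germ (x i) f = germ (x j) f := by
  classical
  rcases S.eq_empty_or_nonempty with rfl | ⟨i₀, hi₀⟩
  · intro i hi
    exact absurd hi (Finset.notMem_empty i)
  have hc : c ≤ Fintype.card σ := by
    have := (hind i₀ hi₀).fintype_card_le_finrank
    rwa [Fintype.card_fin, Module.finrank_fintype_fun_eq_card] at this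
  set e := Fintype.card σ - c with he
  have hec : e + c = Fintype.card σ := by omega
  set dd : ℕ → ℕ := fun j => if h : j < c then (f ⟨j, h⟩).totalDegree + 1 else 1 with hdd
  set C₀ := (c + 2) ^ Fintype.card σ * ∏ j ∈ range c, dd j with hC₀
  have hup : ∀ i ∈ S, ∀ n, hF (germ (x i) f) n ≤ C₀ * (n + 1) ^ e := by
    intro i hi n
    have h1 := H580.up_Vw (K := K) (fun _ : σ => 1) (fun _ => one_ne_zero) x {i} f dd
      (fun j hj => by simp only [hdd, dif_pos hj]; omega)
      (fun j => by
        rw [H580.Vw_one_eq, mem_restrictTotalDegree]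
        simp only [hdd, j.2, dif_pos, Fin.eta]
        omega)
      (fun k hk => by rw [Finset.mem_singleton.1 hk]; exact hev i hi)
      (fun k hk => by rw [Finset.mem_singleton.1 hk]; exact hind i hi) hc (n + 1)
      (fun _ => by omega) (by omega)
    simp only [Finset.prod_const_one, one_mul, Finset.mem_singleton, iInf_iInf_eq_left] at h1
    have h2 : hilbF (Vw K (fun _ : σ => 1)) (germ (x i) f) (n + 1) = hF (germ (x i) f) (n + 1) := by
      have : (Vw K (fun _ : σ => 1)) = restrictTotalDegree σ K := by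
        funext n; exact H580.Vw_one_eq n
      rw [this]; rfl
    rw [h2] at h1
    refine (H441.hF_mono_deg _ (Nat.le_succ n)).trans (h1.trans (le_of_eq ?_))
    rw [hC₀]; ring
  exact incomparable S (fun i => germ (x i) f)
    (fun i hi => H930.germ_isPrime (hev i hi) (hind i hi))
    (fun i hi n => choose_le_hF_germ (x i) f (hev i hi) (hind i hi) hec n) hup

end total

section block

variable {K : Type*} [Field K] {A B : Type*} [Fintype A] [DecidableEq A] [Fintype B]
  [DecidableEq B]

/-- the weights: `1` on `A`, `W` on `B` -/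
def wb (A B : Type*) (W : ℕ) : A ⊕ B → ℕ := Sum.elim (fun _ => 1) (fun _ => W)

omit [Fintype A] [DecidableEq A] [Fintype B] [DecidableEq B] in
theorem wb_ne {W : ℕ} (hW : 1 ≤ W) (x : A ⊕ B) : wb A B W x ≠ 0 := by
  rcases x with x | x
  · simp [wb]
  · simp only [wb, Sum.elim_inr]; omega

omit [Fintype A] [DecidableEq A] [Fintype B] [DecidableEq B] in
theorem rename_inl_mem_Vw (W : ℕ) {a : ℕ} {G : MvPolynomial A K} (hG : G.totalDegree ≤ a) :
    (rename Sum.inl G : MvPolynomial (A ⊕ B) K) ∈ Vw K (wb A B W) a := by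
  classical
  rw [H580.mem_Vw]
  intro s hs
  rw [support_rename_of_injective Sum.inl_injective, Finset.mem_image] at hs
  obtain ⟨t, ht, rfl⟩ := hs
  have h1 := (le_totalDegree ht).trans hG
  refine le_trans (le_of_eq ?_) h1
  rw [Finsupp.weight_apply, Finsupp.sum_mapDomain_index (by simp) (by intros; simp [add_mul])]
  simp [wb]

/-- **Upper bound** for the germs of a block system, normalised. -/
theorem up_block {ι : Type*} (x : ι → A ⊕ B → K) (S : Finset ι) {W D m l v : ℕ} (hW : 1 ≤ W)
    (hD : 1 ≤ D) (F : Fin (m + l) → MvPolynomial (A ⊕ B) K) (f : Fin m → MvPolynomial A K)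
    (hF : ∀ i, F (Fin.castAdd l i) = rename Sum.inl (f i)) (hfdeg : ∀ i, (f i).totalDegree ≤ W)
    (hFdeg : ∀ j, F (Fin.natAdd m j) ∈ Vw K (wb A B W) (D * W))
    (h0 : ∀ e ∈ S, ∀ i, eval (x e) (F i) = 0)
    (hind : ∀ e ∈ S, LinearIndependent K (fun i => grad (x e) (F i)))
    (hlv : l + v = Fintype.card B) (hm : m ≤ Fintype.card A) (n : ℕ) (hn : W ≤ n) :
    W ^ v * hilbF (Vw K (wb A B W)) (⨅ e ∈ S, germ (x e) F) n ≤
      (m + l + 2) ^ (Fintype.card A + Fintype.card B) * (W ^ m * D ^ l) *
        n ^ ((Fintype.card A - m) + v) := by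
  classical
  set dd : ℕ → ℕ := fun j => if j < m then W else D * W with hdd
  have h1 := H580.up_Vw (K := K) (wb A B W) (wb_ne hW) x S F dd
    (fun j _ => by
      simp only [hdd]
      split_ifs
      · exact hW
      · exact Nat.mul_pos hD hW)
    (fun j => by
      refine Fin.addCases (fun i => ?_) (fun i => ?_) j
      · rw [hF]
        have : dd (Fin.castAdd l i : Fin (m + l)) = W := by
          simp [hdd]
        rw [this]
        exact rename_inl_mem_Vw W (hfdeg i)
      · have : dd (Fin.natAdd m i : Fin (m + l)) = D * W := by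
          simp [hdd]
        rw [this]
        exact hFdeg i)
    h0 hind (by rw [Fintype.card_sum]; omega) n
    (fun i => by
      rcases i with i | i
      · simp only [wb, Sum.elim_inl]; omega
      · simp only [wb, Sum.elim_inr]; exact hn) (by omega)
  have h2 : ∏ i, wb A B W i = W ^ l * W ^ v := by
    rw [Fintype.prod_sum_type, ← pow_add, hlv]
    simp [wb]
  have h3 : ∏ j ∈ range (m + l), dd j = W ^ m * D ^ l * W ^ l := by
    rw [Finset.prod_range_add]
    have h4 : ∏ j ∈ range m, dd j = W ^ m := by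
      rw [Finset.prod_congr rfl (g := fun _ => W)]
      · rw [Finset.prod_const, Finset.card_range]
      · intro j hj
        simp only [hdd, Finset.mem_range.1 hj, if_true]
    have h5 : ∏ j ∈ range l, dd (m + j) = (D * W) ^ l := by
      rw [Finset.prod_congr rfl (g := fun _ => D * W)]
      · rw [Finset.prod_const, Finset.card_range]
      · intro j _
        simp only [hdd]
        rw [if_neg (by omega)]
    rw [h4, h5, mul_pow]
    ring
  have h6 : Fintype.card (A ⊕ B) - (m + l) = (Fintype.card A - m) + v := by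
    rw [Fintype.card_sum]; omega
  rw [h2, h3, h6, Fintype.card_sum] at h1
  have hWl : 0 < W ^ l := by positivity
  refine Nat.le_of_mul_le_mul_left ?_ hWl
  calc W ^ l * (W ^ v * hilbF (Vw K (wb A B W)) (⨅ e ∈ S, germ (x e) F) n) =
        W ^ l * W ^ v * hilbF (Vw K (wb A B W)) (⨅ e ∈ S, germ (x e) F) n := by ring
    _ ≤ _ := h1
    _ = _ := by ring

/-- the constant of `card_block_primes` -/
def Cz (a b : ℕ) : ℕ := 2 ^ (a + b) * (a + b) ^ (a + b) * (a + b + 2) ^ (a + b)

/-- **[ZPAIRS]**: the number of distinct germ primes of a block system. -/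
theorem card_block_primes [DecidableEq (Ideal (MvPolynomial (A ⊕ B) K))] {ι : Type*}
    (x : ι → A ⊕ B → K) (S : Finset ι) {W D m l v : ℕ} (hW : 1 ≤ W) (hD : 1 ≤ D)
    (F : Fin (m + l) → MvPolynomial (A ⊕ B) K) (f : Fin m → MvPolynomial A K)
    (hF : ∀ i, F (Fin.castAdd l i) = rename Sum.inl (f i)) (hfdeg : ∀ i, (f i).totalDegree ≤ W)
    (hFdeg : ∀ j, F (Fin.natAdd m j) ∈ Vw K (wb A B W) (D * W))
    (h0 : ∀ e ∈ S, ∀ i, eval (x e) (F i) = 0)
    (hf : ∀ e ∈ S, LinearIndependent K (fun i => grad (x e ∘ Sum.inl) (f i)))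
    (hh : ∀ e ∈ S, LinearIndependent K (fun i : Fin l => fun b =>
      eval (x e) (pderiv (Sum.inr b) (F (Fin.natAdd m i))))) (hlv : l + v = Fintype.card B) :
    (S.image fun e => germ (x e) F).card ≤
      Cz (Fintype.card A) (Fintype.card B) * (W ^ m * D ^ l) := by
  classical
  rcases S.eq_empty_or_nonempty with rfl | ⟨i₀, hi₀⟩
  · simp
  have hm : m ≤ Fintype.card A := by
    have := (hf i₀ hi₀).fintype_card_le_finrank
    rwa [Fintype.card_fin, Module.finrank_fintype_fun_eq_card] at this
  have hind : ∀ e ∈ S, LinearIndependent K (fun i => grad (x e) (F i)) := fun e he =>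
    H930.grad_block_linInd (x e) F f hF (hf e he) (hh e he)
  have hV : IsFilt (Vw K (wb A B W)) := H580.isFilt_Vw _ (wb_ne hW)
  have hXA : ∀ y, (X (Sum.inl y) : MvPolynomial (A ⊕ B) K) ∈ Vw K (wb A B W) 1 := fun y =>
    H580.X_mem_Vw (wb A B W) (Sum.inl y)
  have hXB : ∀ y, (X (Sum.inr y) : MvPolynomial (A ⊕ B) K) ∈ Vw K (wb A B W) W := fun y =>
    H580.X_mem_Vw (wb A B W) (Sum.inr y)
  have hX : ∀ y, (X y : MvPolynomial (A ⊕ B) K) ∈ Vw K (wb A B W) W := by
    intro y
    rcases y with y | y
    · exact hV.mono hW (hXA y)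
    · exact hXB y
  set s := (Fintype.card A - m) + v with hs
  have h1 := card_image_le hV hX S (fun e => germ (x e) F) (s := s)
    (fun e he => H930.germ_isPrime (h0 e he) (hind e he))
    (germ_incomparable x S F h0 hind) (M := W ^ v)
    (Δ := (m + l + 2) ^ (Fintype.card A + Fintype.card B) * (W ^ m * D ^ l)) (a₁ := 0)
    (n₁ := W) (n₂ := 0) (Cl := s ^ s)
    (fun n hn => up_block x S hW hD F f hF hfdeg hFdeg h0 hind hlv hm n hn)
    (fun e he n _ => low_block hV hW hXA hXB (x e) F f hF (hf e he) (hh e he) hlv (h0 e he) n)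
  refine h1.trans ?_
  have hsN : s ≤ Fintype.card A + Fintype.card B := by omega
  have hc : m + l ≤ Fintype.card A + Fintype.card B := by omega
  have hN : 0 < Fintype.card A + Fintype.card B ∨ s = 0 := by omega
  have h2 : 2 ^ s ≤ 2 ^ (Fintype.card A + Fintype.card B) := Nat.pow_le_pow_right (by norm_num) hsN
  have h3 : s ^ s ≤ (Fintype.card A + Fintype.card B) ^ (Fintype.card A + Fintype.card B) := by
    rcases hN with hN | hN
    · exact (Nat.pow_le_pow_left hsN s).trans (Nat.pow_le_pow_right hN hsN)
    · rw [hN]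
      rcases Nat.eq_zero_or_pos (Fintype.card A + Fintype.card B) with h | h
      · rw [h]
      · rw [pow_zero]
        exact Nat.one_le_pow _ _ h
  have h4 : (m + l + 2) ^ (Fintype.card A + Fintype.card B) ≤
      (Fintype.card A + Fintype.card B + 2) ^ (Fintype.card A + Fintype.card B) :=
    Nat.pow_le_pow_left (by omega) _
  calc 2 ^ s * s ^ s * ((m + l + 2) ^ (Fintype.card A + Fintype.card B) * (W ^ m * D ^ l)) =
        (2 ^ s * s ^ s * (m + l + 2) ^ (Fintype.card A + Fintype.card B)) * (W ^ m * D ^ l) := by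
        ring
    _ ≤ _ := Nat.mul_le_mul_right _ (Nat.mul_le_mul (Nat.mul_le_mul h2 h3) h4)

end block

end Vale.Agent.P054.T2.H819
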